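import Mathlib
import Crest.Agent.R22.DetCore107

-- ▼ part R22/TypeExp107
section

/-! Row 22: type expansions (helper107). -/

set_option autoImplicit false

open Finset MvPolynomial

namespace Crest.Agent.R22.TypeExp

/-- polynomial inverse modulo `l ^ m` on a residue class -/
theorem exists_inv {r : ℕ} (l m : ℕ) (D : MvPolynomial (Fin r) ℤ) (t0 : Fin r → ℤ)
    (hD : IsCoprime (eval t0 D) (l : ℤ)) :
    ∃ U : MvPolynomial (Fin r) ℤ, ∀ t : Fin r → ℤ, (∀ i, (l : ℤ) ∣ t i - t0 i) →
      (l : ℤ) ^ m ∣ eval t D * eval t U - 1 := by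
  obtain ⟨u, v, huv⟩ := hD
  refine ⟨C u * ∑ i ∈ range m, (1 - C u * D) ^ i, fun t ht => ?_⟩
  set E : ℤ := 1 - u * eval t D with hE
  have h1 : (l : ℤ) ∣ eval t D - eval t0 D := by
    -- congruence of polynomial values
    have : ∀ p : MvPolynomial (Fin r) ℤ, (l : ℤ) ∣ eval t p - eval t0 p := by
      intro p
      induction p using MvPolynomial.induction_on with
      | C a => simp
      | add p q hp hq =>
          have : eval t (p + q) - eval t0 (p + q) =
            (eval t p - eval t0 p) + (eval t q - eval t0 q) := by simp; ring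
          rw [this]; exact dvd_add hp hq
      | mul_X p i hp =>
          have : eval t (p * X i) - eval t0 (p * X i) =
            (eval t p - eval t0 p) * t i + eval t0 p * (t i - t0 i) := by simp; ring
          rw [this]; exact dvd_add (hp.mul_right _) ((ht i).mul_left _)
    exact this D
  have h2 : (l : ℤ) ∣ E := by
    have : E = v * l - u * (eval t D - eval t0 D) := by
      rw [hE]; linear_combination -huv
    rw [this]
    exact dvd_sub (dvd_mul_left _ _) (h1.mul_left _)
  have h3 : eval t D * eval t (C u * ∑ i ∈ range m, (1 - C u * D) ^ i) - 1 = - E ^ m := by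
    have h4 := mul_neg_geom_sum E m
    have h5 : eval t (C u * ∑ i ∈ range m, (1 - C u * D) ^ i) = u * ∑ i ∈ range m, E ^ i := by
      simp [hE]
    rw [h5]
    have h6 : u * eval t D = 1 - E := by rw [hE]; ring
    calc eval t D * (u * ∑ i ∈ range m, E ^ i) - 1 = (u * eval t D) * ∑ i ∈ range m, E ^ i - 1 := by ring
      _ = (1 - E) * ∑ i ∈ range m, E ^ i - 1 := by rw [h6]
      _ = - E ^ m := by rw [h4]; ring
  rw [h3]
  exact (pow_dvd_pow_of_dvd h2 m).neg_right

/-- Taylor expansion modulo `l ^ m` on a residue class. -/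
theorem exists_taylor {r : ℕ} (l m : ℕ) (H : MvPolynomial (Fin r) ℤ) (t0 : Fin r → ℤ) :
    ∃ c : (Fin r → Fin m) → ℤ, ∀ t : Fin r → ℤ, (∀ i, (l : ℤ) ∣ t i - t0 i) →
      (l : ℤ) ^ m ∣ eval t H - ∑ e, c e * ∏ i, (t i - t0 i) ^ (e i : ℕ) := by
  classical
  induction H using MvPolynomial.induction_on with
  | C a =>
      by_cases hm : m = 0
      · subst hm
        exact ⟨0, fun t _ => by simp⟩
      · haveI : NeZero m := ⟨hm⟩
        refine ⟨fun e => if e = 0 then a else 0, fun t _ => ?_⟩
        have : ∑ e : Fin r → Fin m, (if e = 0 then a else 0) * ∏ i, (t i - t0 i) ^ (e i : ℕ) = a := by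
          rw [Finset.sum_eq_single 0]
          · simp
          · intro b _ hb; simp [hb]
          · simp
        rw [this]; simp
  | add p q hp hq =>
      obtain ⟨c, hc⟩ := hp
      obtain ⟨c', hc'⟩ := hq
      refine ⟨c + c', fun t ht => ?_⟩
      have : eval t (p + q) - ∑ e, (c + c') e * ∏ i, (t i - t0 i) ^ (e i : ℕ) =
          (eval t p - ∑ e, c e * ∏ i, (t i - t0 i) ^ (e i : ℕ)) +
          (eval t q - ∑ e, c' e * ∏ i, (t i - t0 i) ^ (e i : ℕ)) := by
        simp only [map_add, Pi.add_apply, add_mul, Finset.sum_add_distrib]; ring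
      rw [this]
      exact dvd_add (hc t ht) (hc' t ht)
  | mul_X p i hp =>
      obtain ⟨c, hc⟩ := hp
      -- multiply by `t i = t0 i + (t i - t0 i)`
      refine ⟨fun e => t0 i * c e +
        (if h : (e i : ℕ) = 0 then 0 else
          c (Function.update e i ⟨(e i : ℕ) - 1, lt_of_le_of_lt (Nat.sub_le _ _) (e i).2⟩)),
        fun t ht => ?_⟩
      set d : Fin r → ℤ := fun j => t j - t0 j with hd
      have key : (l : ℤ) ^ m ∣ (∑ e, c e * ∏ j, d j ^ (e j : ℕ)) * d i -
          ∑ e : Fin r → Fin m, (if h : (e i : ℕ) = 0 then 0 else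
            c (Function.update e i ⟨(e i : ℕ) - 1, lt_of_le_of_lt (Nat.sub_le _ _) (e i).2⟩)) *
            ∏ j, d j ^ (e j : ℕ) := by
        -- split the first sum according to whether `e i + 1 < m`
        have h1 : (∑ e, c e * ∏ j, d j ^ (e j : ℕ)) * d i =
            ∑ e ∈ univ.filter (fun e : Fin r → Fin m => (e i : ℕ) + 1 < m),
              c e * ((∏ j, d j ^ (e j : ℕ)) * d i) +
            ∑ e ∈ univ.filter (fun e : Fin r → Fin m => ¬ (e i : ℕ) + 1 < m),
              c e * ((∏ j, d j ^ (e j : ℕ)) * d i) := by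
          rw [Finset.sum_mul, ← Finset.sum_filter_add_sum_filter_not univ
            (fun e : Fin r → Fin m => (e i : ℕ) + 1 < m)]
          congr 1 <;> exact Finset.sum_congr rfl fun e _ => by ring
        have h2 : ∑ e : Fin r → Fin m, (if h : (e i : ℕ) = 0 then 0 else
            c (Function.update e i ⟨(e i : ℕ) - 1, lt_of_le_of_lt (Nat.sub_le _ _) (e i).2⟩)) *
            ∏ j, d j ^ (e j : ℕ) =
            ∑ e ∈ univ.filter (fun e : Fin r → Fin m => (e i : ℕ) + 1 < m),
              c e * ((∏ j, d j ^ (e j : ℕ)) * d i) := by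
          rw [← Finset.sum_filter_add_sum_filter_not univ
            (fun e : Fin r → Fin m => (e i : ℕ) = 0)]
          have h3 : ∑ e ∈ univ.filter (fun e : Fin r → Fin m => (e i : ℕ) = 0),
              (if h : (e i : ℕ) = 0 then 0 else
            c (Function.update e i ⟨(e i : ℕ) - 1, lt_of_le_of_lt (Nat.sub_le _ _) (e i).2⟩)) *
            ∏ j, d j ^ (e j : ℕ) = 0 := by
            refine Finset.sum_eq_zero fun e he => ?_
            rw [Finset.mem_filter] at he
            simp [he.2]
          rw [h3, zero_add]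
          refine Finset.sum_bij' (i := fun e _ => Function.update e i
              ⟨(e i : ℕ) - 1, lt_of_le_of_lt (Nat.sub_le _ _) (e i).2⟩)
            (j := fun e he => Function.update e i ⟨(e i : ℕ) + 1, (Finset.mem_filter.mp he).2⟩)
            ?_ ?_ ?_ ?_ ?_
          · intro e he
            rw [Finset.mem_filter] at he ⊢
            refine ⟨Finset.mem_univ _, ?_⟩
            have := (e i).2
            simp only [Function.update_self]
            have h0 := he.2
            omega
          · intro e he
            rw [Finset.mem_filter] at he ⊢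
            exact ⟨Finset.mem_univ _, by simp⟩
          · intro e he
            rw [Finset.mem_filter] at he
            have h0 := he.2
            ext j
            by_cases hj : j = i
            · subst hj
              simp only [Function.update_self]
              omega
            · simp [Function.update_of_ne hj]
          · intro e he
            ext j
            by_cases hj : j = i
            · subst hj
              simp
            · simp [Function.update_of_ne hj]
          · intro e he
            rw [Finset.mem_filter] at he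
            have h0 := he.2
            rw [dif_neg h0]
            congr 1
            rw [← Finset.mul_prod_erase univ (fun j => d j ^ (e j : ℕ)) (Finset.mem_univ i),
              ← Finset.mul_prod_erase univ (fun j => d j ^ ((Function.update e i
              ⟨(e i : ℕ) - 1, lt_of_le_of_lt (Nat.sub_le _ _) (e i).2⟩) j : ℕ)) (Finset.mem_univ i)]
            have h5 : ∏ x ∈ univ.erase i, d x ^ ((Function.update e i
              ⟨(e i : ℕ) - 1, lt_of_le_of_lt (Nat.sub_le _ _) (e i).2⟩) x : ℕ) =
              ∏ x ∈ univ.erase i, d x ^ (e x : ℕ) := by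
              refine Finset.prod_congr rfl fun x hx => ?_
              rw [Function.update_of_ne (Finset.ne_of_mem_erase hx)]
            rw [h5]
            simp only [Function.update_self]
            have h6 : d i ^ (e i : ℕ) = d i ^ ((e i : ℕ) - 1) * d i := by
              rw [← pow_succ]; congr 1; omega
            rw [h6]; ring
        rw [h1, h2, add_sub_cancel_left]
        refine Finset.dvd_sum fun e he => ?_
        rw [Finset.mem_filter] at he
        have h7 : m ≤ (e i : ℕ) + 1 := not_lt.mp he.2
        refine Dvd.dvd.mul_left ?_ _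
        rw [← Finset.mul_prod_erase univ (fun j => d j ^ (e j : ℕ)) (Finset.mem_univ i)]
        have h8 : (l : ℤ) ^ m ∣ d i ^ ((e i : ℕ) + 1) :=
          dvd_trans (pow_dvd_pow _ h7) (pow_dvd_pow_of_dvd (ht i) _)
        rw [show d i ^ (e i : ℕ) * (∏ x ∈ univ.erase i, d x ^ (e x : ℕ)) * d i =
          d i ^ ((e i : ℕ) + 1) * (∏ x ∈ univ.erase i, d x ^ (e x : ℕ)) by ring]
        exact h8.mul_right _
      have h9 := hc t ht
      have h10 : eval t (p * X i) - ∑ e, (t0 i * c e +
          (if h : (e i : ℕ) = 0 then 0 else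
          c (Function.update e i ⟨(e i : ℕ) - 1, lt_of_le_of_lt (Nat.sub_le _ _) (e i).2⟩))) *
            ∏ j, (t j - t0 j) ^ (e j : ℕ) =
          (eval t p - ∑ e, c e * ∏ j, d j ^ (e j : ℕ)) * t i +
          ((∑ e, c e * ∏ j, d j ^ (e j : ℕ)) * d i -
          ∑ e : Fin r → Fin m, (if h : (e i : ℕ) = 0 then 0 else
            c (Function.update e i ⟨(e i : ℕ) - 1, lt_of_le_of_lt (Nat.sub_le _ _) (e i).2⟩)) *
            ∏ j, d j ^ (e j : ℕ)) := by
        simp only [add_mul, Finset.sum_add_distrib, map_mul, eval_X]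
        have h11 : ∑ x : Fin r → Fin m, t0 i * c x * ∏ j, (t j - t0 j) ^ (x j : ℕ) =
            (∑ e, c e * ∏ j, d j ^ (e j : ℕ)) * t0 i := by
          rw [Finset.sum_mul]
          exact Finset.sum_congr rfl fun e _ => by simp only [hd]; ring
        rw [h11]
        simp only [hd]
        ring
      rw [h10]
      exact dvd_add (h9.mul_right _) key

/-- The type expansion of an integer valued function `F` with `F * D ^ K = ∑ G_j n ^ j`. -/
theorem exists_types {r : ℕ} (l m K J : ℕ) (D : MvPolynomial (Fin r) ℤ)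
    (G : Fin (J + 1) → MvPolynomial (Fin r) ℤ) (t0 : Fin r → ℤ)
    (hD : IsCoprime (eval t0 D) (l : ℤ)) :
    ∃ c : Fin (J + 1) × (Fin r → Fin m) → ℤ, ∀ (t : Fin r → ℤ) (n F : ℤ),
      (∀ i, (l : ℤ) ∣ t i - t0 i) →
      F * (eval t D) ^ K = ∑ j, eval t (G j) * n ^ (j : ℕ) →
      (l : ℤ) ^ m ∣ F - ∑ x : Fin (J + 1) × (Fin r → Fin m),
        c x * (n ^ (x.1 : ℕ) * ∏ i, (t i - t0 i) ^ (x.2 i : ℕ)) := by
  obtain ⟨U, hU⟩ := exists_inv l m D t0 hD
  choose c hc using fun j : Fin (J + 1) => exists_taylor l m (G j * U ^ K) t0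
  refine ⟨fun x => c x.1 x.2, fun t n F ht hF => ?_⟩
  have h1 : (l : ℤ) ^ m ∣ (eval t D * eval t U) ^ K - 1 := by
    have := sub_dvd_pow_sub_pow (eval t D * eval t U) 1 K
    rw [one_pow] at this
    exact (hU t ht).trans this
  have h2 : F - ∑ x : Fin (J + 1) × (Fin r → Fin m),
        c x.1 x.2 * (n ^ (x.1 : ℕ) * ∏ i, (t i - t0 i) ^ (x.2 i : ℕ)) =
      - F * ((eval t D * eval t U) ^ K - 1) +
      ∑ j : Fin (J + 1), n ^ (j : ℕ) * (eval t (G j * U ^ K) -
        ∑ e, c j e * ∏ i, (t i - t0 i) ^ (e i : ℕ)) := by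
    rw [Fintype.sum_prod_type]
    have h3 : F * (eval t D * eval t U) ^ K = ∑ j : Fin (J + 1), n ^ (j : ℕ) * eval t (G j * U ^ K) := by
      rw [mul_pow, ← mul_assoc, hF, Finset.sum_mul]
      refine Finset.sum_congr rfl fun j _ => ?_
      simp only [map_mul, map_pow]; ring
    have h4 : ∑ j : Fin (J + 1), n ^ (j : ℕ) * (eval t (G j * U ^ K) -
        ∑ e, c j e * ∏ i, (t i - t0 i) ^ (e i : ℕ)) =
        (∑ j : Fin (J + 1), n ^ (j : ℕ) * eval t (G j * U ^ K)) -
        ∑ j : Fin (J + 1), ∑ e, c j e * (n ^ (j : ℕ) * ∏ i, (t i - t0 i) ^ (e i : ℕ)) := by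
      rw [← Finset.sum_sub_distrib]
      refine Finset.sum_congr rfl fun j _ => ?_
      rw [mul_sub, Finset.mul_sum]
      congr 1
      exact Finset.sum_congr rfl fun e _ => by ring
    rw [h4, ← h3]; ring
  rw [h2]
  refine dvd_add (h1.mul_left _) (Finset.dvd_sum fun j _ => ?_)
  exact (hc j t ht).mul_left _

end Crest.Agent.R22.TypeExp
end

-- ▼ part R22/TypeCount107

/-! Row 22: counting types and the complete determinant step on an `r`-dimensional slice
(helper107). -/

set_option autoImplicit false

open Finset MvPolynomial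

namespace Crest.Agent.R22.TypeCount

/-- lower bound for a sum of orders from upper bounds for the numbers of types of order `l < L` -/
theorem orders_lower {τ : Type*} [Fintype τ] (ord : τ → ℕ) (m L : ℕ) (hLm : L ≤ m) (N : ℕ → ℕ)
    (hN : ∀ l < L, (univ.filter fun t => ord t = l).card ≤ N l) (T : Finset τ) (k : ℕ) :
    L * (T.card + k) ≤ ∑ t ∈ T, ord t + k * m + ∑ l ∈ range L, (L - l) * N l := by
  have h1 : ∀ t, L ≤ ord t + (L - ord t) := fun t => by omega
  have h2 : L * T.card ≤ ∑ t ∈ T, ord t + ∑ t ∈ T, (L - ord t) := by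
    rw [← Finset.sum_add_distrib, mul_comm]
    calc T.card * L = ∑ _t ∈ T, L := by rw [Finset.sum_const, smul_eq_mul]
      _ ≤ _ := Finset.sum_le_sum fun t _ => h1 t
  have h3 : ∑ t ∈ T, (L - ord t) ≤ ∑ l ∈ range L, (L - l) * N l := by
    calc ∑ t ∈ T, (L - ord t) ≤ ∑ t, (L - ord t) :=
          Finset.sum_le_sum_of_subset (Finset.subset_univ _)
      _ = ∑ t ∈ univ.filter (fun t => ord t < L), (L - ord t) := by
          rw [Finset.sum_filter]
          refine Finset.sum_congr rfl fun t _ => ?_
          split_ifs with h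
          · rfl
          · omega
      _ = ∑ l ∈ range L, ∑ t ∈ (univ.filter fun t => ord t < L).filter (fun t => ord t = l),
            (L - ord t) := by
          rw [Finset.sum_fiberwise_of_maps_to]
          intro t ht
          simpa using ht
      _ ≤ ∑ l ∈ range L, (L - l) * N l := by
          refine Finset.sum_le_sum fun l hl => ?_
          rw [Finset.mem_range] at hl
          calc ∑ t ∈ (univ.filter fun t => ord t < L).filter (fun t => ord t = l), (L - ord t)
              = ∑ _t ∈ (univ.filter fun t => ord t < L).filter (fun t => ord t = l), (L - l) := by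
                refine Finset.sum_congr rfl fun t ht => ?_
                rw [(Finset.mem_filter.mp ht).2]
            _ = ((univ.filter fun t => ord t < L).filter (fun t => ord t = l)).card * (L - l) := by
                rw [Finset.sum_const, smul_eq_mul]
            _ ≤ N l * (L - l) := by
                refine Nat.mul_le_mul_right _ (le_trans (Finset.card_le_card ?_) (hN l hl))
                intro t ht
                rw [Finset.mem_filter] at ht ⊢
                exact ⟨Finset.mem_univ _, ht.2⟩
            _ = (L - l) * N l := mul_comm _ _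
  have h4 : L * k ≤ k * m := by rw [mul_comm]; exact Nat.mul_le_mul_left _ hLm
  calc L * (T.card + k) = L * T.card + L * k := by ring
    _ ≤ (∑ t ∈ T, ord t + ∑ t ∈ T, (L - ord t)) + k * m := add_le_add h2 h4
    _ ≤ _ := by omega

/-- number of exponent vectors of given total degree -/
theorem card_exps_le (r m l : ℕ) :
    (univ.filter fun e : Fin r → Fin m => ∑ i, (e i : ℕ) = l).card ≤ r.multichoose l := by
  classical
  have h := Finset.card_finsuppAntidiag_nat_eq_multichoose (s := (univ : Finset (Fin r))) l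
  rw [Finset.card_univ, Fintype.card_fin] at h
  rw [← h]
  refine Finset.card_le_card_of_injOn
    (fun e => Finsupp.equivFunOnFinite.symm fun i => (e i : ℕ)) ?_ ?_
  · intro e he
    rw [Finset.mem_coe, Finset.mem_filter] at he
    rw [Finset.mem_coe, Finset.mem_finsuppAntidiag]
    exact ⟨by simpa using he.2, Finset.subset_univ _⟩
  · intro e _ e' _ hee
    have := Finsupp.equivFunOnFinite.symm.injective hee
    funext i
    exact Fin.ext (congrFun this i)

theorem sum_multichoose (r L : ℕ) :
    ∑ l ∈ range (L + 1), r.multichoose l = (r + 1).multichoose L := by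
  induction L with
  | zero => simp
  | succ L ih => rw [Finset.sum_range_succ, ih, Nat.multichoose_succ_succ]; ring

theorem sum_weighted_multichoose (r L : ℕ) :
    ∑ l ∈ range L, (L - l) * r.multichoose l = (L + r).choose (r + 1) := by
  induction L with
  | zero => simp
  | succ L ih =>
      have h1 : ∑ l ∈ range (L + 1), (L + 1 - l) * r.multichoose l =
          ∑ l ∈ range (L + 1), (L - l) * r.multichoose l + ∑ l ∈ range (L + 1), r.multichoose l := by
        rw [← Finset.sum_add_distrib]
        refine Finset.sum_congr rfl fun l hl => ?_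
        rw [Finset.mem_range] at hl
        have : L + 1 - l = (L - l) + 1 := by omega
        rw [this]; ring
      rw [h1, Finset.sum_range_succ, ih, sum_multichoose, Nat.sub_self, zero_mul, add_zero,
        Nat.multichoose_eq]
      have h2 : r + 1 + L - 1 = L + r := by omega
      rw [h2]
      have h3 : (L + r).choose L = (L + r).choose r := by
        rw [← Nat.choose_symm_add]
      rw [h3]
      have h4 : L + 1 + r = (L + r) + 1 := by ring
      rw [h4, Nat.choose_succ_succ]
      ring

/-- the order function on the types `n ^ j (t - t0) ^ e` -/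
def ord (J r m : ℕ) (x : Fin (J + 1) × (Fin r → Fin m)) : ℕ := ∑ i, (x.2 i : ℕ)

theorem card_ord_le (J r m l : ℕ) :
    (univ.filter fun x => ord J r m x = l).card ≤ (J + 1) * r.multichoose l := by
  classical
  have h1 : (univ.filter fun x => ord J r m x = l) =
      (univ : Finset (Fin (J + 1))) ×ˢ (univ.filter fun e : Fin r → Fin m => ∑ i, (e i : ℕ) = l) := by
    ext x
    rw [Finset.mem_filter, Finset.mem_product, Finset.mem_filter]
    simp [ord]
  rw [h1, Finset.card_product, Finset.card_univ, Fintype.card_fin]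
  exact Nat.mul_le_mul_left _ (card_exps_le r m l)

theorem ord_lower (J r m : ℕ) (T : Finset (Fin (J + 1) × (Fin r → Fin m))) (k : ℕ) :
    m * (T.card + k) ≤ ∑ x ∈ T, ord J r m x + k * m + (J + 1) * (m + r).choose (r + 1) := by
  have h := orders_lower (ord J r m) m m le_rfl (fun l => (J + 1) * r.multichoose l)
    (fun l _ => card_ord_le J r m l) T k
  have h2 : ∑ l ∈ range m, (m - l) * ((J + 1) * r.multichoose l) =
      (J + 1) * (m + r).choose (r + 1) := by
    rw [← sum_weighted_multichoose, Finset.mul_sum]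
    exact Finset.sum_congr rfl fun l _ => by ring
  rwa [h2] at h

/-- **Determinant step on an `r`-dimensional slice with a free variable `n` of degree `≤ J`.**
`F i` (integer valued on `S`) satisfies `F i * D(t) ^ K i = ∑_j G i j (t) n ^ j`; all points of `S`
are congruent to `t0 l` modulo each auxiliary `l`, where `D (t0 l)` is prime to `l`. -/
theorem relation_slice {ι P : Type*} [Fintype ι] [DecidableEq ι] {r J m w : ℕ} (S : Set P)
    (t : P → Fin r → ℤ) (n : P → ℤ) (F : ι → P → ℤ)
    (D : MvPolynomial (Fin r) ℤ) (K : ι → ℕ) (G : ι → Fin (J + 1) → MvPolynomial (Fin r) ℤ)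
    (hF : ∀ i, ∀ p ∈ S, F i p * (eval (t p) D) ^ K i = ∑ j, eval (t p) (G i j) * n p ^ (j : ℕ))
    (L : Finset ℕ) (hL : (L : Set ℕ).Pairwise Nat.Coprime) (t0 : ℕ → Fin r → ℤ)
    (ht0 : ∀ l ∈ L, ∀ p ∈ S, ∀ i, (l : ℤ) ∣ t p i - t0 l i)
    (hD : ∀ l ∈ L, IsCoprime (eval (t0 l) D) (l : ℤ))
    (B : ι → ℝ) (hB : ∀ p ∈ S, ∀ i, |(F i p : ℝ)| ≤ B i)
    (hw : w + (J + 1) * (m + r).choose (r + 1) ≤ m * Fintype.card ι)
    (hlt : (Fintype.card ι).factorial * ∏ i, B i < ((∏ l ∈ L, l : ℕ) : ℝ) ^ w) :
    ∃ a : ι → ℤ, a ≠ 0 ∧ ∀ p ∈ S, ∑ i, a i * F i p = 0 := by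
  refine DetCore.relation_of_class S F B hB L hL w m (fun l hl => ?_) hlt
  choose c hc using fun i => TypeExp.exists_types l m (K i) J D (G i) (t0 l) (hD l hl)
  refine ⟨Fin (J + 1) × (Fin r → Fin m), inferInstance, ord J r m, c,
    fun x p => n p ^ (x.1 : ℕ) * ∏ i, (t p i - t0 l i) ^ (x.2 i : ℕ), ?_, ?_, ?_⟩
  · intro x p hp
    refine Dvd.dvd.mul_left ?_ _
    rw [ord, ← Finset.prod_pow_eq_pow_sum]
    exact Finset.prod_dvd_prod_of_dvd _ _ fun i _ => pow_dvd_pow_of_dvd (ht0 l hl p hp i) _
  · intro i p hp
    exact hc i (t p) (n p) (F i p) (ht0 l hl p hp) (hF i p hp)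
  · intro T k hT
    have := ord_lower J r m T k
    rw [hT] at this
    omega

end Crest.Agent.R22.TypeCount
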