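import Mathlib

/-! Row 22: polynomial toolkit with heights (helper859).

`len F` is the sum of the absolute values of the coefficients of an integer polynomial.
-/

set_option autoImplicit false

open Finset

namespace Crest.Agent.R22.PolyKit

section Len

variable {σ : Type*}

/-- length (sum of absolute values of coefficients) of an integer polynomial -/
noncomputable def len (F : MvPolynomial σ ℤ) : ℕ := ∑ m ∈ F.support, (F.coeff m).natAbs

theorem len_eq_sum_of_subset (F : MvPolynomial σ ℤ) (s : Finset (σ →₀ ℕ)) (h : F.support ⊆ s) :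
    len F = ∑ m ∈ s, (F.coeff m).natAbs := by
  refine Finset.sum_subset h fun m _ hm => ?_
  rw [MvPolynomial.notMem_support_iff] at hm
  simp [hm]



@[simp] theorem len_zero : len (0 : MvPolynomial σ ℤ) = 0 := by simp [len]



theorem len_monomial (m : σ →₀ ℕ) (a : ℤ) : len (MvPolynomial.monomial m a) = a.natAbs := by
  classical
  rw [len_eq_sum_of_subset _ {m} MvPolynomial.support_monomial_subset]
  simp

@[simp] theorem len_C (a : ℤ) : len (MvPolynomial.C a : MvPolynomial σ ℤ) = a.natAbs := by
  rw [← len_monomial 0 a]; rfl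

@[simp] theorem len_one : len (1 : MvPolynomial σ ℤ) = 1 := by
  rw [← MvPolynomial.C_1, len_C]; rfl

@[simp] theorem len_X (i : σ) : len (MvPolynomial.X i : MvPolynomial σ ℤ) = 1 := by
  rw [MvPolynomial.X, len_monomial]; rfl

@[simp] theorem len_neg (F : MvPolynomial σ ℤ) : len (-F) = len F := by
  unfold len
  simp [MvPolynomial.support_neg]









/-- evaluation bound -/
theorem natAbs_eval_le (F : MvPolynomial σ ℤ) (x : σ → ℤ) (B d : ℕ) (hB : 1 ≤ B)
    (hx : ∀ i, (x i).natAbs ≤ B) (hd : F.totalDegree ≤ d) :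
    (MvPolynomial.eval x F).natAbs ≤ len F * B ^ d := by
  classical
  rw [MvPolynomial.eval_eq]
  refine (Int.natAbs_sum_le _ _).trans ?_
  rw [len, Finset.sum_mul]
  refine Finset.sum_le_sum fun m hm => ?_
  rw [Int.natAbs_mul]
  refine Nat.mul_le_mul_left _ ?_
  have hprod : (∏ i ∈ m.support, x i ^ m i).natAbs = ∏ i ∈ m.support, (x i ^ m i).natAbs :=
    map_prod Int.natAbsHom _ _
  rw [hprod]
  calc ∏ i ∈ m.support, (x i ^ m i).natAbs ≤ ∏ i ∈ m.support, B ^ m i := by
        refine Finset.prod_le_prod (fun _ _ => Nat.zero_le _) fun i _ => ?_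
        rw [Int.natAbs_pow]
        exact Nat.pow_le_pow_left (hx i) _
    _ = B ^ (∑ i ∈ m.support, m i) := by rw [Finset.prod_pow_eq_pow_sum]
    _ ≤ B ^ d := Nat.pow_le_pow_right hB ((MvPolynomial.le_totalDegree hm).trans hd)




end Len

section FactorHeight

open Polynomial















end FactorHeight

section Elim

open Polynomial

variable {r : ℕ}

/-- Gauss + resultant: the resultant of an irreducible polynomial of positive degree and a
polynomial that it does not divide is nonzero. -/
theorem resultant_ne_zero_of_irreducible {R : Type*} [CommRing R] [IsDomain R]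
    [UniqueFactorizationMonoid R] {g G : R[X]} (hg : Irreducible g) (hdeg : 1 ≤ g.natDegree)
    (h : ¬ g ∣ G) : resultant g G ≠ 0 := by
  have hprim : g.IsPrimitive := hg.isPrimitive (by omega)
  set K := FractionRing R
  have hinj : Function.Injective (algebraMap R K) := IsFractionRing.injective R K
  have hirr : Irreducible (g.map (algebraMap R K)) :=
    (hprim.irreducible_iff_irreducible_map_fraction_map (K := K)).mp hg
  intro h0
  have h1 : resultant (g.map (algebraMap R K)) (G.map (algebraMap R K)) = 0 := by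
    rw [Polynomial.natDegree_map_eq_of_injective hinj, Polynomial.natDegree_map_eq_of_injective hinj,
      Polynomial.resultant_map_map, h0, map_zero]
  rw [Polynomial.resultant_eq_zero_iff] at h1
  apply h1.2
  rw [hirr.coprime_iff_not_dvd]
  intro h2
  exact h (hprim.dvd_of_fraction_map_dvd_fraction_map h2)

/-- vanishing of the resultant at common zeros -/
theorem map_resultant_eq_zero {R S : Type*} [CommRing R] [CommRing S] (φ : R →+* S)
    (g G : R[X]) (hdeg : 1 ≤ g.natDegree) (x : S) (h1 : g.eval₂ φ x = 0) (h2 : G.eval₂ φ x = 0) :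
    φ (resultant g G) = 0 := by
  obtain ⟨p, q, -, -, h⟩ := Polynomial.exists_mul_add_mul_eq_C_resultant g G le_rfl le_rfl
    (Or.inl (by omega))
  have h3 := congrArg (Polynomial.eval₂ φ x) h
  rw [Polynomial.eval₂_add, Polynomial.eval₂_mul, Polynomial.eval₂_mul, h1, h2,
    Polynomial.eval₂_C] at h3
  rw [← h3]; ring


theorem totalDegree_det {n : Type*} [DecidableEq n] [Fintype n] {σ : Type*}
    (M : Matrix n n (MvPolynomial σ ℤ)) (D : ℕ) (hD : ∀ i j, (M i j).totalDegree ≤ D) :
    M.det.totalDegree ≤ Fintype.card n * D := by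
  rw [Matrix.det_apply]
  refine (MvPolynomial.totalDegree_finsetSum _ _).trans (Finset.sup_le fun s _ => ?_)
  have h1 : (Equiv.Perm.sign s • ∏ i, M (s i) i).totalDegree ≤ (∏ i, M (s i) i).totalDegree := by
    rcases Int.units_eq_one_or (Equiv.Perm.sign s) with h | h
    · rw [h, one_smul]
    · rw [h, Units.neg_smul, one_smul, MvPolynomial.totalDegree_neg]
  refine h1.trans ((MvPolynomial.totalDegree_finsetProd _ _).trans ?_)
  calc ∑ i, (M (s i) i).totalDegree ≤ ∑ _i : n, D := Finset.sum_le_sum fun i _ => hD _ _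
    _ = _ := by rw [Finset.sum_const, Finset.card_univ, smul_eq_mul]

theorem sylvester_entry {R : Type*} [CommRing R] (P : R → Prop) (h0 : P 0) (f g : R[X]) (m n : ℕ)
    (hf : ∀ k, P (f.coeff k)) (hg : ∀ k, P (g.coeff k)) (i j : Fin (m + n)) :
    P (sylvester f g m n i j) := by
  rw [sylvester, Matrix.of_apply]
  refine Fin.addCases (fun j₁ => ?_) (fun j₁ => ?_) j
  · rw [Fin.addCases_left]
    split_ifs
    · exact hg _
    · exact h0
  · rw [Fin.addCases_right]
    split_ifs
    · exact hf _
    · exact h0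


theorem totalDegree_resultant {σ : Type*} (g G : (MvPolynomial σ ℤ)[X]) (D M : ℕ)
    (hg : ∀ k, (g.coeff k).totalDegree ≤ D) (hG : ∀ k, (G.coeff k).totalDegree ≤ D)
    (hM : g.natDegree + G.natDegree ≤ M) : (resultant g G).totalDegree ≤ M * D := by
  have h1 := totalDegree_det (sylvester g G g.natDegree G.natDegree) D
    (fun i j => sylvester_entry (fun F => F.totalDegree ≤ D) (by simp) g G _ _ hg hG i j)
  rw [Fintype.card_fin] at h1
  exact h1.trans (Nat.mul_le_mul_right _ hM)


/-- a product of distinct primes `≥ Q` dividing `v ≠ 0` -/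
theorem pow_card_le_natAbs (v : ℤ) (hv : v ≠ 0) (Q : ℕ) (s : Finset ℕ)
    (hs : ∀ l ∈ s, l.Prime ∧ (l : ℤ) ∣ v ∧ Q ≤ l) : Q ^ s.card ≤ v.natAbs := by
  have h1 : ∏ l ∈ s, l ∣ v.natAbs := by
    refine Finset.prod_primes_dvd _ (fun l hl => (hs l hl).1.prime) fun l hl => ?_
    exact Int.natCast_dvd.mp (hs l hl).2.1
  calc Q ^ s.card = ∏ _l ∈ s, Q := by rw [Finset.prod_const]
    _ ≤ ∏ l ∈ s, l := Finset.prod_le_prod (fun _ _ => Nat.zero_le _) fun l hl => (hs l hl).2.2
    _ ≤ v.natAbs := Nat.le_of_dvd (Int.natAbs_pos.mpr hv) h1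

/-- **(K3)** if `|v| < Q ^ c` then fewer than `c` primes `≥ Q` divide `v`. -/
theorem card_lt_of_natAbs_lt (v : ℤ) (hv : v ≠ 0) (Q c : ℕ) (hQ : 1 ≤ Q) (hvc : v.natAbs < Q ^ c)
    (s : Finset ℕ) (hs : ∀ l ∈ s, l.Prime ∧ (l : ℤ) ∣ v ∧ Q ≤ l) : s.card < c := by
  by_contra hcon
  push Not at hcon
  have h1 := pow_card_le_natAbs v hv Q s hs
  have h2 : Q ^ c ≤ Q ^ s.card := Nat.pow_le_pow_right hQ hcon
  omega

end Elim

section Bezout

open Polynomial




theorem eval₂_finSuccEquiv {r : ℕ} (F : MvPolynomial (Fin (r + 1)) ℤ) (x : Fin (r + 1) → ℤ) :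
    (MvPolynomial.finSuccEquiv ℤ r F).eval₂ (MvPolynomial.eval (fun i : Fin r => x i.succ)) (x 0) =
      MvPolynomial.eval x F := by
  have h := MvPolynomial.eval_eq_eval_mv_eval' (fun i : Fin r => x i.succ) (x 0) F
  rw [Fin.cons_self_tail x |> fun h => (show Fin.cons (x 0) (fun i : Fin r => x i.succ) = x from h)] at h
  rw [h, Polynomial.eval_map]



end Bezout

section Factors


/-- total degree is additive on products of nonzero polynomials -/
theorem totalDegree_multiset_prod {r : ℕ} (s : Multiset (MvPolynomial (Fin r) ℤ))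
    (h : ∀ g ∈ s, g ≠ 0) : s.prod.totalDegree = (s.map MvPolynomial.totalDegree).sum := by
  induction s using Multiset.induction_on with
  | empty => simp
  | cons a s ih =>
      have h1 : ∀ g ∈ s, g ≠ 0 := fun g hg => h g (Multiset.mem_cons_of_mem hg)
      rw [Multiset.prod_cons, Multiset.map_cons, Multiset.sum_cons,
        MvPolynomial.totalDegree_mul_of_isDomain (h a (Multiset.mem_cons_self a s)), ih h1]
      rw [Ne, Multiset.prod_eq_zero_iff]
      exact fun h0 => h1 0 h0 rfl

/-- number of nonconstant irreducible factors (with multiplicity) -/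
theorem card_factors_le {r : ℕ} (G : MvPolynomial (Fin r) ℤ) (hG : G ≠ 0) :
    Multiset.card ((UniqueFactorizationMonoid.factors G).filter (fun g => g.totalDegree ≠ 0)) ≤
      G.totalDegree := by
  classical
  have h0 : ∀ g ∈ UniqueFactorizationMonoid.factors G, g ≠ 0 := fun g hg =>
    (UniqueFactorizationMonoid.irreducible_of_factor g hg).ne_zero
  have hprod0 : (UniqueFactorizationMonoid.factors G).prod ≠ 0 := by
    rw [Ne, Multiset.prod_eq_zero_iff]
    exact fun h1 => h0 0 h1 rfl
  obtain ⟨u, hu⟩ := UniqueFactorizationMonoid.factors_prod hG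
  have h1 : (UniqueFactorizationMonoid.factors G).prod.totalDegree ≤ G.totalDegree := by
    calc (UniqueFactorizationMonoid.factors G).prod.totalDegree
        ≤ (UniqueFactorizationMonoid.factors G).prod.totalDegree +
          (u : MvPolynomial (Fin r) ℤ).totalDegree := Nat.le_add_right _ _
      _ = G.totalDegree := by
          rw [← MvPolynomial.totalDegree_mul_of_isDomain hprod0 u.ne_zero, hu]
  rw [totalDegree_multiset_prod _ h0] at h1
  refine le_trans ?_ h1
  generalize UniqueFactorizationMonoid.factors G = s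
  induction s using Multiset.induction_on with
  | empty => simp
  | cons a s ih =>
      rw [Multiset.map_cons, Multiset.sum_cons]
      by_cases ha : a.totalDegree ≠ 0
      · rw [Multiset.filter_cons_of_pos (p := fun g : MvPolynomial (Fin r) ℤ => g.totalDegree ≠ 0) _ ha,
          Multiset.card_cons]
        omega
      · rw [Multiset.filter_cons_of_neg (p := fun g : MvPolynomial (Fin r) ℤ => g.totalDegree ≠ 0) _ ha]
        omega

end Factors

end Crest.Agent.R22.PolyKit
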