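import Crest.Agent.R022.Curve354F
import Crest.Agent.R022.Ifaces250
import Mathlib
import Crest.Agent.R022.Glue776
import Crest.Agent.R022.Free712H
import Crest.Agent.R022.Expand
import Crest.Agent.R22.DetCore107
import Crest.Agent.R22.TypeCount107
import Crest.Agent.R22.PolyKit859

-- ▼ part R022/Curve354G
section

/-! Row 22, stage 4 (helper354): the interface `L3At`. -/

set_option autoImplicit false

open Polynomial Finset

namespace Crest.Agent.R022.Curve354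

open Crest.Agent.R022.Expand Crest.Agent.R022.Torsor

/-- **L3.** -/
theorem l3At {F : ℤ[X]} (hF : F.Monic) (hirr : Irreducible F)
    (z : Fin F.natDegree → ℂ) (hinj : Function.Injective z)
    (hz : ∀ i, F.eval₂ (Int.castRingHom ℂ) (z i) = 0) (k : ℕ) (hk : 2 ≤ k)
    (hdeg : k + 2 = F.natDegree) (ρ κ : ℝ) (hκ : ρ / 2 < κ) : L3At hF z k ρ κ := by
  intro Cc M hCc hM
  have hdk : k + 1 < F.natDegree * (k - 1) := by
    rw [← hdeg]
    obtain ⟨j, rfl⟩ : ∃ j, k = j + 2 := ⟨k - 2, by omega⟩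
    have : j + 2 - 1 = j + 1 := by omega
    rw [this]
    nlinarith
  obtain ⟨A0, B, hA01, hA0⟩ := curve_finish_slice hF hirr z hinj hz (by omega) k hk hdk ρ κ hκ
    Cc M hM
  refine ⟨B, A0, fun A hA hA1 a0 S n b L hD hpar => ?_⟩
  classical
  choose! s hs using hpar
  have hST : (hD.fin.toFinset : Set (Fin 2 → ℤ)) = S := hD.fin.coe_toFinset
  rw [Set.ncard_eq_toFinset_card S hD.fin]
  refine hA0 A hA a0 hD.gp hD.fin.toFinset n b ?_ (fun l => s l) (fun _ _ => 0) L ?_ ?_ ?_ ?_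
  · intro t ht
    exact hD.pt t (hD.fin.mem_toFinset.mp ht)
  · rw [hST]
    exact ⟨hD.cop, hD.big, fun l hl x hx i => (hs l hl).1 x hx i⟩
  · intro i
    rw [hST]
    intro l hl m
    fin_cases i
    · exact (hs l hl).2 _ (by simp) _ m
    · exact (hs l hl).2 _ (by simp) _ m
  · rw [hST]
    intro l hl m
    exact (hs l hl).2 _ (by simp) _ m
  · intro l hl t ht
    exact hD.nm l hl t (hD.fin.mem_toFinset.mp ht)

end Crest.Agent.R022.Curve354
end

-- ▼ part R022/L2Glue776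
section

/-! Row 22 (helper776): level 2 (`L2At`) from helper712's `free_curve`. -/

set_option autoImplicit false

namespace Crest.Agent.R022.Glue776

open MvPolynomial Crest.Agent.R22 Crest.Agent.R022 Crest.Agent.R022.Torsor Crest.Agent.R022.Expand

/-- The conclusion of helper712's `free_curve` (all constants and degrees). -/
def FreeCurveAt {F : Polynomial ℤ} (hF : F.Monic) (z : Fin F.natDegree → ℂ) (k : ℕ) (ρ κ : ℝ) :
    Prop :=
  ∀ Cc M : ℕ, 0 < Cc → 0 < M → ∀ D1 : ℕ, ∃ B D : ℕ, ∀ A : ℝ, 1 ≤ A →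
    ∀ a0 S n b L, LevelData hF z k Cc M A ρ a0 S n b L κ →
    (∀ l ∈ L, Par 1 S (l : ℤ) {(fun t => t 0), (fun t => t 1)}) →
    ∀ h : MvPolynomial (Fin 2) ℂ, Irreducible h → h.totalDegree ≤ D1 →
    ∀ U ⊆ S, (∀ t ∈ U, MvPolynomial.eval (fun i => (t i : ℂ)) h = 0) → U.ncard ≤ B ∨
      ∃ g : Polynomial (MvPolynomial (Fin 2) ℤ), g.natDegree ≤ D ∧
        (∀ i, (g.coeff i).totalDegree ≤ D) ∧ (∀ t ∈ U, ev3 g t (n t) = 0) ∧
        ¬ Polynomial.C h ∣ g.map (MvPolynomial.map (Int.castRingHom ℂ))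

theorem ev3_map (g : Polynomial (MvPolynomial (Fin 2) ℤ)) (t : Fin 2 → ℤ) (n : ℤ) :
    ((g.map (MvPolynomial.map (Int.castRingHom ℂ))).map
      (MvPolynomial.eval (fun i => (t i : ℂ)))).eval (n : ℂ) = ((ev3 g t n : ℤ) : ℂ) := by
  unfold ev3
  rw [Polynomial.map_map]
  have h1 : (MvPolynomial.eval (fun i => (t i : ℂ))).comp
      (MvPolynomial.map (Int.castRingHom ℂ)) =
      (Int.castRingHom ℂ).comp (MvPolynomial.eval t) := by
    ext i
    · simp
    · simp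
  rw [h1, ← Polynomial.map_map, Polynomial.eval_intCast_map]
  simp

theorem l2At_of_freeCurveAt {F : Polynomial ℤ} (hF : F.Monic) (z : Fin F.natDegree → ℂ) (k : ℕ)
    (ρ κ : ℝ) (H : FreeCurveAt hF z k ρ κ) : L2At hF z k ρ κ := by
  classical
  intro Cc M hC hM D1
  obtain ⟨B, D, hBD⟩ := H Cc M hC hM D1
  obtain ⟨D2, hD2⟩ := glue D1 D B
  refine ⟨D2, 1, ?_⟩
  intro A _ hA a0 S n b L hL hR hPar j
  obtain ⟨R, hR0, hRD, hRS⟩ := hR
  have hfin := hL.fin
  suffices hst : _ by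
    obtain ⟨E, hE0, hED, hE⟩ := hD2 hfin.toFinset n R hR0 hRD
      (fun t ht => hRS t (hfin.mem_toFinset.1 ht)) hst j
    exact ⟨E, hE0, hED, fun t ht => hE t (hfin.mem_toFinset.2 ht)⟩
  · intro h hirr hdeg U' hU' hh
    have hUS : (U' : Set (Fin 2 → ℤ)) ⊆ S := fun t ht =>
      hfin.mem_toFinset.1 (hU' (Finset.mem_coe.1 ht))
    rcases hBD A hA a0 S n b L hL hPar h hirr hdeg (U' : Set (Fin 2 → ℤ)) hUS
      (fun t ht => hh t (Finset.mem_coe.1 ht)) with h1 | ⟨g, hg1, hg2, hg3, hg4⟩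
    · left
      rwa [Set.ncard_coe_finset] at h1
    · right
      refine ⟨g.map (MvPolynomial.map (Int.castRingHom ℂ)),
        Polynomial.natDegree_map_le.trans hg1, ?_, ?_, hg4⟩
      · intro i
        rw [Polynomial.coeff_map]
        exact (Finset.sup_mono (MvPolynomial.support_map_subset _ _)).trans (hg2 i)
      · intro t ht
        rw [ev3_map, hg3 t (Finset.mem_coe.2 ht), Int.cast_zero]

end Crest.Agent.R022.Glue776
end

-- ▼ part R022/Free712I
section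

/-! R022, stage 3 (helper712), part I: `FreeCurveAt` and `L2At`. -/

set_option autoImplicit false

namespace Crest.Agent.R022.Free712

theorem freeCurveAt {F : Polynomial ℤ} (hF : F.Monic)
    (hirr : Irreducible (F.map (Int.castRingHom ℚ))) (z : Fin F.natDegree → ℂ)
    (hinj : Function.Injective z) (hz : ∀ i, F.eval₂ (Int.castRingHom ℂ) (z i) = 0) {k : ℕ}
    (hk : k + 2 = F.natDegree) (hk2 : 2 ≤ k) {ρ : ℝ} (hρ : (k : ℝ) / (k + 1) ≤ ρ) :
    Glue776.FreeCurveAt hF z k ρ (505 / 1000 * ρ) :=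
  fun Cc M hC hM D1 => free_curve hF hirr z hinj hz hk hk2 hρ Cc M hC hM D1

/-- **Level L2** in the form of `Ifaces250`. -/
theorem l2At {F : Polynomial ℤ} (hF : F.Monic)
    (hirr : Irreducible (F.map (Int.castRingHom ℚ))) (z : Fin F.natDegree → ℂ)
    (hinj : Function.Injective z) (hz : ∀ i, F.eval₂ (Int.castRingHom ℂ) (z i) = 0) {k : ℕ}
    (hk : k + 2 = F.natDegree) (hk2 : 2 ≤ k) {ρ : ℝ} (hρ : (k : ℝ) / (k + 1) ≤ ρ) :
    L2At hF z k ρ (505 / 1000 * ρ) :=
  Glue776.l2At_of_freeCurveAt hF z k ρ _ (freeCurveAt hF hirr z hinj hz hk hk2 hρ)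

end Crest.Agent.R022.Free712
end

-- ▼ part R022/InstA250
section

/-! Row 22 (helper250): auxiliary lemmas for the instantiation: pool of primes, sizes. -/

set_option autoImplicit false

namespace Crest.Agent.R022.Inst

open Crest.Agent.R022.Torsor Crest.Agent.R022.Expand

/-- A pool of `K` primes in `(X, 2 ^ K X]`. -/
theorem exists_pool (K X : ℕ) (hX : 1 ≤ X) : ∃ PP : Finset ℕ, PP.card = K ∧
    ∀ r ∈ PP, r.Prime ∧ X < r ∧ r ≤ 2 ^ K * X := by
  classical
  induction K with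
  | zero => exact ⟨∅, rfl, by simp⟩
  | succ K ih =>
    obtain ⟨PP, hcard, hPP⟩ := ih
    have hne : 2 ^ K * X ≠ 0 := by positivity
    obtain ⟨p, hp, h1, h2⟩ := Nat.exists_prime_lt_and_le_two_mul (2 ^ K * X) hne
    have hpn : p ∉ PP := fun h => by
      have := (hPP p h).2.2
      omega
    refine ⟨insert p PP, by rw [Finset.card_insert_of_notMem hpn, hcard], ?_⟩
    intro r hr
    rcases Finset.mem_insert.mp hr with rfl | hr
    · refine ⟨hp, lt_of_le_of_lt ?_ h1, by rw [pow_succ]; linarith⟩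
      calc X = 1 * X := (one_mul X).symm
        _ ≤ 2 ^ K * X := Nat.mul_le_mul_right _ Nat.one_le_two_pow
    · obtain ⟨g1, g2, g3⟩ := hPP r hr
      refine ⟨g1, g2, g3.trans ?_⟩
      rw [pow_succ]
      nlinarith [Nat.zero_le (2 ^ K * X)]

/-- the moduli `r ^ a` -/
def mods (a : ℕ) (Q : Finset ℕ) : Finset ℕ := Q.image (fun r => r ^ a)

theorem mem_mods {a : ℕ} {Q : Finset ℕ} {l : ℕ} : l ∈ mods a Q ↔ ∃ r ∈ Q, r ^ a = l := by
  unfold mods; simp

theorem mods_coprime {a : ℕ} {Q : Finset ℕ} (hQ : ∀ r ∈ Q, r.Prime) :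
    ((mods a Q : Finset ℕ) : Set ℕ).Pairwise Nat.Coprime := by
  intro x hx y hy hxy
  obtain ⟨r, hr, rfl⟩ := mem_mods.mp hx
  obtain ⟨s, hs, rfl⟩ := mem_mods.mp hy
  have hrs : r ≠ s := fun h => hxy (by rw [h])
  exact Nat.Coprime.pow _ _ ((Nat.coprime_primes (hQ r hr) (hQ s hs)).mpr hrs)

theorem prod_mods {a : ℕ} (ha : 1 ≤ a) {Q : Finset ℕ} :
    ∏ l ∈ mods a Q, l = ∏ r ∈ Q, r ^ a := by
  unfold mods
  rw [Finset.prod_image]
  intro x _ y _ h
  exact Nat.pow_left_injective (by omega) h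

/-- lower bound of the product of the moduli -/
theorem le_prod_mods {a h : ℕ} (ha : 1 ≤ a) {Q : Finset ℕ} {X : ℕ} (hX : 1 ≤ X)
    (hQ : ∀ r ∈ Q, X < r) (hcard : h ≤ Q.card) {A ε κ : ℝ} (hA : 1 ≤ A) (hXA : A ^ ε ≤ X)
    (hκ : κ ≤ ε * (a * h)) (hε : 0 ≤ ε) :
    A ^ κ ≤ ((∏ l ∈ mods a Q, l : ℕ) : ℝ) := by
  have hA0 : 0 < A := by linarith
  rw [prod_mods ha]
  have h1 : X ^ (a * h) ≤ ∏ r ∈ Q, r ^ a := by
    calc X ^ (a * h) ≤ X ^ (a * Q.card) :=
          Nat.pow_le_pow_right hX (Nat.mul_le_mul_left _ hcard)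
      _ = ∏ _r ∈ Q, X ^ a := by rw [Finset.prod_const, ← pow_mul]
      _ ≤ ∏ r ∈ Q, r ^ a :=
          Finset.prod_le_prod' fun r hr => Nat.pow_le_pow_left (hQ r hr).le _
  calc A ^ κ ≤ A ^ (ε * (a * h)) := Real.rpow_le_rpow_of_exponent_le hA hκ
    _ = (A ^ ε) ^ (a * h : ℕ) := by
        rw [Real.rpow_mul hA0.le, ← Nat.cast_mul, Real.rpow_natCast]
    _ ≤ (X : ℝ) ^ (a * h : ℕ) := pow_le_pow_left₀ (Real.rpow_nonneg hA0.le _) hXA _
    _ = ((X ^ (a * h) : ℕ) : ℝ) := by push_cast; rfl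
    _ ≤ _ := by exact_mod_cast h1

/-- For constants `c0, c1, E` there are `B, A1` with `c0 * H ^ c1 < X ^ (B+1)` for `A ≥ A1`, where
`H ≤ c2 * A ^ E`, `A ^ ε ≤ X`. -/
theorem exists_B (c0 c1 E : ℕ) (c2 : ℝ) (hc2 : 0 ≤ c2) (ε : ℝ) (hε : 0 < ε) :
    ∃ (B : ℕ) (A1 : ℝ), ∀ A : ℝ, A1 ≤ A → 1 ≤ A → ∀ H X : ℕ, (H : ℝ) ≤ c2 * A ^ E →
      A ^ ε ≤ X → c0 * H ^ c1 < X ^ (B + 1) := by
  obtain ⟨B, hB⟩ := exists_nat_ge (((E * c1 : ℕ) + 1 : ℝ) / ε)
  have hB' : ((E * c1 : ℕ) : ℝ) + 1 ≤ ε * (B + 1) := by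
    rw [div_le_iff₀ hε] at hB
    nlinarith
  refine ⟨B, c0 * c2 ^ c1 + 1, ?_⟩
  intro A hA1 hA H X hH hX
  have hA0 : 0 < A := by linarith
  have h1 : ((c0 * H ^ c1 : ℕ) : ℝ) < ((X ^ (B + 1) : ℕ) : ℝ) := by
    push_cast
    calc (c0 : ℝ) * (H : ℝ) ^ c1 ≤ c0 * (c2 * A ^ E) ^ c1 := by gcongr
      _ = (c0 * c2 ^ c1) * A ^ (E * c1) := by rw [mul_pow, pow_mul]; ring
      _ < A * A ^ (E * c1) := by
          apply mul_lt_mul_of_pos_right _ (by positivity)
          linarith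
      _ = A ^ (((E * c1 : ℕ) : ℝ) + 1) := by
          rw [Real.rpow_add hA0, Real.rpow_natCast, Real.rpow_one, mul_comm]
      _ ≤ A ^ (ε * (B + 1)) := Real.rpow_le_rpow_of_exponent_le hA hB'
      _ = (A ^ ε) ^ (B + 1) := by
          rw [Real.rpow_mul hA0.le, ← Nat.cast_add_one, Real.rpow_natCast]
      _ ≤ (X : ℝ) ^ (B + 1) := by gcongr
  exact_mod_cast h1

end Crest.Agent.R022.Inst
end

-- ▼ part R022/InstB250
section

/-! Row 22 (helper250): instantiation: `SliceBoundAt` from the abstract level bookkeeping and the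
four level theorems. -/

set_option autoImplicit false

namespace Crest.Agent.R022.Inst

open Crest.Agent.R022.Torsor Crest.Agent.R022.Expand


/-- L0 in the shape of the interfaces -/
theorem l0At {F : Polynomial ℤ} (hF : F.Monic) (z : Fin F.natDegree → ℂ)
    (hinj : Function.Injective z) (hz : ∀ i, F.eval₂ (Int.castRingHom ℂ) (z i) = 0) {k : ℕ}
    (hk : k + 2 = F.natDegree) (hk2 : 2 ≤ k) {ρ : ℝ} (hρ : 3 / 5 ≤ ρ) (Cc M : ℕ) (hC : 0 < Cc)
    (hM : 0 < M) : ∃ D0 : ℕ, ∀ A : ℝ, 1 ≤ A → ∀ a0 S n b L,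
      LevelData hF z k Cc M A ρ a0 S n b L (49 / 100 * ρ) →
      (∀ l ∈ L, ∀ t ∈ S, ∀ t' ∈ S, ∀ i, (l : ℤ) ∣ t i - t' i) →
      ∃ G : MvPolynomial (Fin 3) ℤ, G ≠ 0 ∧ G.totalDegree ≤ D0 ∧
        ∀ t ∈ S, MvPolynomial.eval ![n t, t 0, t 1] G = 0 := by
  obtain ⟨D0, h⟩ := Stage107.level0 hF z hinj hz hk hk2 hρ Cc M hC hM
  refine ⟨2 * D0, ?_⟩
  intro A hA a0 S n b L hL hcong
  obtain ⟨G, hG0, hGd, hGc, hG⟩ := h A hA a0 hL.gp (Fin 2 → ℤ) S (fun t => t) n b hL.pt L hL.cop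
    hL.big hL.nm hcong
  obtain ⟨H, hH0, hHd, hH⟩ := Stage107.exists_mv G hG0 hGd hGc
  refine ⟨H, hH0, hHd, ?_⟩
  intro t ht
  have h1 := hH t (n t)
  have h2 : (![n t, t 0, t 1] : Fin 3 → ℤ) = Fin.cons (n t) t := by
    funext i
    refine Fin.cases rfl (fun i => ?_) i
    fin_cases i <;> rfl
  rw [h2, h1]
  exact hG t ht

/-- `LevelData` for the moduli `r ^ a`, `r ∈ Q`. -/
theorem levelData_mods {F : Polynomial ℤ} (hF : F.Monic) (z : Fin F.natDegree → ℂ) {k Cc M : ℕ}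
    {A ρ : ℝ} {a0 : Fin F.natDegree → ℤ} (ha0 : ∀ i, |(a0 i : ℝ)| ≤ 2 * A) (hgp : GenPos z a0)
    {T : Finset (Fin 2 → ℤ)} {n : (Fin 2 → ℤ) → ℤ} {b : (Fin 2 → ℤ) → Fin F.natDegree → ℤ}
    (hT : ∀ t ∈ T, IsSPt hF k Cc M A ρ a0 t (n t) (b t)) {a h : ℕ} (ha : 1 ≤ a) {Q : Finset ℕ}
    {X : ℕ} (hX : 1 ≤ X) (hQp : ∀ r ∈ Q, r.Prime) (hQ : ∀ r ∈ Q, X < r) (hcard : h ≤ Q.card)
    (hA : 1 ≤ A) {ε κ : ℝ} (hε : 0 ≤ ε) (hXA : A ^ ε ≤ X) (hκ : κ ≤ ε * (a * h))
    (hXC : Cc < X) (hQd : ∀ r ∈ Q, (r : ℝ) < A ^ F.natDegree)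
    {U : Finset (Fin 2 → ℤ)} (hU : U ⊆ T) :
    LevelData hF z k Cc M A ρ a0 (U : Set (Fin 2 → ℤ)) n b (mods a Q) κ where
  a0_le := ha0
  gp := hgp
  fin := U.finite_toSet
  pt := fun t ht => hT t (hU ht)
  cop := mods_coprime hQp
  big := le_prod_mods ha hX hQ hcard hA hXA hκ hε
  nm := by
    intro l hl t ht
    obtain ⟨r, hr, rfl⟩ := mem_mods.mp hl
    have h1 := Stage107.coprime_of_prime hF (hT t (hU ht)) (hQp r hr) (hXC.trans (hQ r hr))
      (hQd r hr)
    push_cast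
    exact h1.pow_right

end Crest.Agent.R022.Inst
end

-- ▼ part R22/Spec859
section

/-! Row 22: specialisation of a polynomial in several variables to one variable, congruences and
the implicit function theorem (helper859). -/

set_option autoImplicit false

open Finset Polynomial

namespace Crest.Agent.R22.Spec859

open Crest.Agent.R022.Expand

variable {σ : Type*} [DecidableEq σ]

/-- `F(y_1, .., y_j + X, ..)` as a polynomial in `X` -/
noncomputable def spec (j : σ) (y : σ → ℤ) : MvPolynomial σ ℤ →+* ℤ[X] :=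
  MvPolynomial.eval₂Hom C (fun i => if i = j then X + C (y j) else C (y i))

theorem spec_C (j : σ) (y : σ → ℤ) (a : ℤ) : spec j y (MvPolynomial.C a) = C a := by
  simp [spec]

theorem spec_X_self (j : σ) (y : σ → ℤ) : spec j y (MvPolynomial.X j) = X + C (y j) := by
  simp [spec]

theorem spec_X_ne {i j : σ} (h : i ≠ j) (y : σ → ℤ) : spec j y (MvPolynomial.X i) = C (y i) := by
  simp [spec, h]

theorem spec_eval (j : σ) (y : σ → ℤ) (F : MvPolynomial σ ℤ) (δ : ℤ) :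
    (spec j y F).eval δ = MvPolynomial.eval (Function.update y j (y j + δ)) F := by
  induction F using MvPolynomial.induction_on with
  | C a => simp
  | add p q hp hq => simp [hp, hq]
  | mul_X p i hp =>
    rw [map_mul, map_mul, eval_mul, hp, MvPolynomial.eval_X]
    by_cases h : i = j
    · subst h
      rw [spec_X_self]; simp [add_comm]
    · rw [spec_X_ne h]; simp [h]

theorem spec_coeff_zero (j : σ) (y : σ → ℤ) (F : MvPolynomial σ ℤ) :
    (spec j y F).coeff 0 = MvPolynomial.eval y F := by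
  rw [coeff_zero_eq_eval_zero, spec_eval]
  simp

theorem spec_coeff_one (j : σ) (y : σ → ℤ) (F : MvPolynomial σ ℤ) :
    (spec j y F).coeff 1 = MvPolynomial.eval y (MvPolynomial.pderiv j F) := by
  induction F using MvPolynomial.induction_on with
  | C a =>
    rw [spec_C, coeff_C, if_neg one_ne_zero, MvPolynomial.pderiv_C, map_zero]
  | add p q hp hq => simp [hp, hq]
  | mul_X p i hp =>
    rw [map_mul, MvPolynomial.pderiv_mul, map_add, map_mul, map_mul, ← hp, MvPolynomial.eval_X,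
      ← spec_coeff_zero]
    by_cases h : i = j
    · subst h
      rw [spec_X_self, MvPolynomial.pderiv_X_self]
      simp [mul_add, coeff_mul_X]
      ring
    · rw [spec_X_ne h, MvPolynomial.pderiv_X_of_ne h]
      simp

theorem spec_natDegree (j : σ) (y : σ → ℤ) (F : MvPolynomial σ ℤ) :
    (spec j y F).natDegree ≤ F.totalDegree := by
  conv_lhs => rw [F.as_sum]
  rw [map_sum]
  refine natDegree_sum_le_of_forall_le _ _ fun e he => ?_
  rw [spec, MvPolynomial.coe_eval₂Hom, MvPolynomial.eval₂_monomial]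
  refine natDegree_mul_le.trans ?_
  rw [natDegree_C, zero_add]
  refine (natDegree_prod_le _ _).trans (le_trans ?_ (MvPolynomial.le_totalDegree he))
  refine Finset.sum_le_sum fun i _ => ?_
  refine natDegree_pow_le.trans ?_
  have : (if i = j then (X : ℤ[X]) + C (y j) else C (y i)).natDegree ≤ 1 := by
    split_ifs
    · exact (natDegree_X_add_C _).le
    · simp
  calc e i * _ ≤ e i * 1 := Nat.mul_le_mul_left _ this
    _ = e i := mul_one _

/-- Taylor formula in one variable modulo `q` -/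
theorem taylor_one (F : MvPolynomial σ ℤ) (j : σ) (x y : σ → ℤ) (q : ℤ)
    (h : ∀ i, i ≠ j → q ∣ x i - y i) :
    ∃ c, q ∣ MvPolynomial.eval x F - MvPolynomial.eval y F -
      (x j - y j) * (MvPolynomial.eval y (MvPolynomial.pderiv j F) + (x j - y j) * c) := by
  set δ := x j - y j with hδ
  have h1 : q ∣ MvPolynomial.eval x F -
      MvPolynomial.eval (Function.update y j (y j + δ)) F := by
    refine HasExp.dvd_eval_sub F fun i => ?_
    by_cases hi : i = j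
    · subst hi; simp [hδ]
    · simpa [hi] using h i hi
  obtain ⟨k, hk⟩ := (spec j y F).binomExpansion 0 δ
  rw [zero_add, spec_eval, ← coeff_zero_eq_eval_zero, spec_coeff_zero,
    ← coeff_zero_eq_eval_zero] at hk
  have h2 : (spec j y F).derivative.coeff 0 = MvPolynomial.eval y (MvPolynomial.pderiv j F) := by
    rw [coeff_derivative, zero_add, spec_coeff_one]; simp
  rw [h2] at hk
  refine ⟨k, ?_⟩
  rw [hk] at h1
  exact dvd_congr_right h1 (by ring)

/-- uniqueness of Hensel lifts -/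
theorem lift_unique {r b : ℕ} (hr : r.Prime) (F : MvPolynomial σ ℤ) (j : σ) (x y : σ → ℤ)
    (h : ∀ i, i ≠ j → (r : ℤ) ^ b ∣ x i - y i) (hj : (r : ℤ) ∣ x j - y j)
    (hder : ¬ (r : ℤ) ∣ MvPolynomial.eval y (MvPolynomial.pderiv j F))
    (hF : (r : ℤ) ^ b ∣ MvPolynomial.eval x F - MvPolynomial.eval y F) :
    (r : ℤ) ^ b ∣ x j - y j := by
  obtain ⟨c, hc⟩ := taylor_one F j x y ((r : ℤ) ^ b) h
  have h1 := dvd_sub hF hc
  rw [sub_sub_cancel] at h1
  have hp : Prime (r : ℤ) := Nat.prime_iff_prime_int.mp hr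
  refine IsCoprime.dvd_of_dvd_mul_right ?_ h1
  refine IsCoprime.pow_left ?_
  rw [Prime.coprime_iff_not_dvd hp]
  intro h2
  apply hder
  have := dvd_sub h2 (hj.mul_right c)
  rwa [add_sub_cancel_right] at this

/-- the number of residues of a coordinate -/
theorem card_residues {P : Type*} {r : ℕ} (hr : r.Prime) (F : MvPolynomial σ ℤ) (j : σ)
    (U : Finset P) (x : P → σ → ℤ)
    (h : ∀ p ∈ U, ∀ p' ∈ U, ∀ i, i ≠ j → (r : ℤ) ∣ x p i - x p' i)
    (hF : ∀ p ∈ U, MvPolynomial.eval (x p) F = 0)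
    (hder : ∀ p ∈ U, ¬ (r : ℤ) ∣ MvPolynomial.eval (x p) (MvPolynomial.pderiv j F)) :
    (U.image fun p => x p j % (r : ℤ)).card ≤ F.totalDegree := by
  classical
  rcases U.eq_empty_or_nonempty with h0 | ⟨p0, hp0⟩
  · simp [h0]
  have : Fact r.Prime := ⟨hr⟩
  set g : (ZMod r)[X] := (spec j (x p0) F).map (Int.castRingHom (ZMod r)) with hg
  have hg0 : g ≠ 0 := by
    intro h0
    have h1 : g.coeff 1 = 0 := by rw [h0, coeff_zero]
    rw [hg, coeff_map, spec_coeff_one, Int.coe_castRingHom, ZMod.intCast_zmod_eq_zero_iff_dvd] at h1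
    exact hder p0 hp0 h1
  have hroot : ∀ p ∈ U, g.eval (((x p j - x p0 j : ℤ)) : ZMod r) = 0 := by
    intro p hp
    have h1 : (r : ℤ) ∣ MvPolynomial.eval (x p) F -
        MvPolynomial.eval (Function.update (x p0) j (x p0 j + (x p j - x p0 j))) F := by
      refine HasExp.dvd_eval_sub F fun i => ?_
      by_cases hi : i = j
      · subst hi; simp
      · simpa [hi] using h p hp p0 hp0 i hi
    rw [hF p hp, zero_sub, dvd_neg, ← spec_eval] at h1
    have h2 := (ZMod.intCast_zmod_eq_zero_iff_dvd _ r).mpr h1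
    have h3 := Polynomial.eval_intCast_map (Int.castRingHom (ZMod r)) (spec j (x p0) F)
      (x p j - x p0 j)
    rw [← hg] at h3
    rw [h3]
    exact h2
  calc (U.image fun p => x p j % (r : ℤ)).card
      ≤ (g.roots.toFinset).card := by
        refine Finset.card_le_card_of_surjOn
          (fun z : ZMod r => ((z + (x p0 j : ZMod r)).val : ℤ)) ?_
        intro u hu
        rw [Finset.mem_coe, Finset.mem_image] at hu
        obtain ⟨p, hp, rfl⟩ := hu
        refine ⟨((x p j - x p0 j : ℤ) : ZMod r), ?_, ?_⟩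
        · rw [Finset.mem_coe, Multiset.mem_toFinset, mem_roots hg0]
          exact hroot p hp
        · simp only
          push_cast
          rw [sub_add_cancel]
          exact ZMod.val_intCast _
    _ ≤ g.roots.card := Multiset.toFinset_card_le _
    _ ≤ g.natDegree := card_roots' g
    _ ≤ (spec j (x p0) F).natDegree := natDegree_map_le
    _ ≤ F.totalDegree := spec_natDegree _ _ _

/-! ### Expansions of implicit functions -/

section implicit

variable {P τ : Type*} {S : Set P} {s : P → τ → ℤ} {n : P → ℤ} {l : ℤ}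

theorem hasExp_spec_coeff (F : MvPolynomial σ ℤ) (j : σ) (x : P → σ → ℤ) (y : ℤ) (m : ℕ)
    (hx : ∀ i, i ≠ j → HasExp S s n l m 0 (fun p => x p i)) (i : ℕ) :
    HasExp S s n l m 0 (fun p => (spec j (Function.update (x p) j y) F).coeff i) := by
  induction F using MvPolynomial.induction_on generalizing i with
  | C a =>
    refine (HasExp.const (if i = 0 then a else 0)).congr fun p _ => ?_
    rw [spec_C, coeff_C]
  | add p q hp hq =>
    exact ((hp i).add (hq i)).congr fun p _ => by rw [map_add, coeff_add]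
  | mul_X p i' hp =>
    by_cases h : i' = j
    · subst h
      rcases i with _ | i
      · refine (HasExp.mul_zero_left (hp 0) (HasExp.const y)).congr fun p _ => ?_
        rw [map_mul, spec_X_self, mul_add, coeff_add, coeff_mul_X_zero, coeff_mul_C]
        simp
      · refine ((hp i).add (HasExp.mul_zero_left (hp (i + 1)) (HasExp.const y))).congr
          fun p _ => ?_
        rw [map_mul, spec_X_self, mul_add, coeff_add, coeff_mul_X, coeff_mul_C]
        simp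
    · refine (HasExp.mul_zero_left (hp i) (hx i' h)).congr fun p _ => ?_
      rw [map_mul, spec_X_ne h, coeff_mul_C]
      simp [h]

/-- **Implicit function theorem**: if `F(x) = 0` on `S`, all coordinates but the `j`-th have
expansions, and `∂F/∂x_j` is invertible modulo `l` on the class, then the `j`-th coordinate has
expansions. -/
theorem implicit_mv (F : MvPolynomial σ ℤ) (j : σ) (x : P → σ → ℤ) (y : σ → ℤ)
    (hx : ∀ i, i ≠ j → ∀ m, HasExp S s n l m 0 (fun p => x p i))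
    (hxl : ∀ p ∈ S, ∀ i, l ∣ x p i - y i)
    (hder : IsCoprime (MvPolynomial.eval y (MvPolynomial.pderiv j F)) l)
    (hF : ∀ p ∈ S, MvPolynomial.eval (x p) F = 0) (m : ℕ) :
    HasExp S s n l m 0 (fun p => x p j) := by
  obtain ⟨u, v, huv⟩ := hder
  have hz : HasExp S s n l m 0 (fun p => x p j - y j) := by
    refine HasExp.implicit (K := max 1 F.totalDegree)
      (c := fun i p => (spec j (Function.update (x p) j (y j)) F).coeff i)
      (fun m i _ => hasExp_spec_coeff F j x (y j) m (fun i hi => hx i hi m) i)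
      (le_max_left _ _) u (fun p hp => ?_) (fun p hp => hxl p hp j) (fun p hp => ?_) m
    · rw [spec_coeff_one]
      have h1 : l ∣ MvPolynomial.eval (Function.update (x p) j (y j)) (MvPolynomial.pderiv j F) -
          MvPolynomial.eval y (MvPolynomial.pderiv j F) := by
        refine HasExp.dvd_eval_sub _ fun i => ?_
        by_cases hi : i = j
        · subst hi; simp
        · simpa [hi] using hxl p hp i
      exact dvd_congr_right (dvd_sub (dvd_mul_left l v) (h1.mul_left u))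
        (by linear_combination -huv)
    · rw [← eval_eq_sum_range' (n := max 1 F.totalDegree + 1) (by
        have h1 := spec_natDegree j (Function.update (x p) j (y j)) F
        have h2 : F.totalDegree ≤ max 1 F.totalDegree := le_max_right _ _
        omega), spec_eval]
      have h3 : Function.update (Function.update (x p) j (y j)) j
          ((Function.update (x p) j (y j)) j + (x p j - y j)) = x p := by
        rw [Function.update_idem, Function.update_self]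
        have : y j + (x p j - y j) = x p j := by ring
        rw [this, Function.update_eq_self]
      rw [h3, hF p hp]
  exact (hz.add (HasExp.const (y j))).congr fun p _ => by ring

end implicit

end Crest.Agent.R22.Spec859
end

-- ▼ part R22/Select859
section

/-! Row 22: selection of attached objects, and iterated pigeonhole (helper859). -/

set_option autoImplicit false

open Finset

namespace Crest.Agent.R22.Select859

/-- **Selection lemma.** If every code class `U` has a list of `D + 1` objects `Xs` such that each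
point of `U` satisfies `Φ (Xs i)` for some `i ≤ D`, then there is a selection `sel` taking at most
`D + 1` values on every set of points with the same code. -/
theorem exists_sel {π γ X : Type*} [Nonempty X] [DecidableEq X] (T : Finset π) (c : π → γ)
    (Φ : X → π → Prop) (D : ℕ)
    (h : ∀ U ⊆ T, (∀ p ∈ U, ∀ p' ∈ U, c p = c p') →
      ∃ Xs : ℕ → X, ∀ p ∈ U, ∃ i ≤ D, Φ (Xs i) p) :
    ∃ sel : π → X, (∀ p ∈ T, Φ (sel p) p) ∧
      ∀ U ⊆ T, (∀ p ∈ U, ∀ p' ∈ U, c p = c p') → (U.image sel).card ≤ D + 1 := by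
  classical
  have h1 : ∀ g : γ, ∃ Xs : ℕ → X, ∀ p ∈ T.filter (fun p => c p = g), ∃ i ≤ D, Φ (Xs i) p := by
    intro g
    refine h _ (Finset.filter_subset _ _) fun p hp p' hp' => ?_
    rw [(Finset.mem_filter.mp hp).2, (Finset.mem_filter.mp hp').2]
  choose Xs hXs using h1
  have h2 : ∀ p : π, ∃ i, p ∈ T → i ≤ D ∧ Φ (Xs (c p) i) p := by
    intro p
    by_cases hp : p ∈ T
    · obtain ⟨i, hi, h3⟩ := hXs (c p) p (Finset.mem_filter.mpr ⟨hp, rfl⟩)
      exact ⟨i, fun _ => ⟨hi, h3⟩⟩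
    · exact ⟨0, fun h => absurd h hp⟩
  choose idx hidx using h2
  refine ⟨fun p => Xs (c p) (idx p), fun p hp => (hidx p hp).2, fun U hU hc => ?_⟩
  rcases U.eq_empty_or_nonempty with h0 | ⟨p0, hp0⟩
  · simp [h0]
  have h3 : U.image (fun p => Xs (c p) (idx p)) ⊆ (range (D + 1)).image (Xs (c p0)) := by
    intro x hx
    obtain ⟨p, hp, rfl⟩ := Finset.mem_image.mp hx
    refine Finset.mem_image.mpr ⟨idx p, Finset.mem_range.mpr ?_, ?_⟩
    · have := (hidx p (hU hp)).1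
      omega
    · simp only [hc p hp p0 hp0]
  exact (Finset.card_le_card h3).trans (Finset.card_image_le.trans (by simp))

/-- the version with a side condition `good` -/
theorem exists_sel_good {π γ X : Type*} [Nonempty X] [DecidableEq X] (T : Finset π) (c : π → γ)
    (good : π → Prop) (Φ : X → π → Prop) (D : ℕ)
    (h : ∀ U ⊆ T, (∀ p ∈ U, good p) → (∀ p ∈ U, ∀ p' ∈ U, c p = c p') →
      ∃ Xs : ℕ → X, ∀ p ∈ U, ∃ i ≤ D, Φ (Xs i) p) :
    ∃ sel : π → X, (∀ p ∈ T, good p → Φ (sel p) p) ∧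
      ∀ U ⊆ T, (∀ p ∈ U, good p) → (∀ p ∈ U, ∀ p' ∈ U, c p = c p') →
        (U.image sel).card ≤ D + 1 := by
  classical
  obtain ⟨sel, h1, h2⟩ := exists_sel (T.filter good) c Φ D (fun U hU hc =>
    h U (hU.trans (Finset.filter_subset _ _)) (fun p hp => (Finset.mem_filter.mp (hU hp)).2) hc)
  refine ⟨sel, fun p hp hg => h1 p (Finset.mem_filter.mpr ⟨hp, hg⟩), fun U hU hg hc => ?_⟩
  exact h2 U (fun p hp => Finset.mem_filter.mpr ⟨hU hp, hg p hp⟩) hc

/-- pigeonhole: pass to a subset where `g` is constant -/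
theorem pigeon {π β : Type*} [DecidableEq β] (U : Finset π) (g : π → β) (D : ℕ)
    (h : (U.image g).card ≤ D) :
    ∃ U' ⊆ U, U.card ≤ D * U'.card ∧ ∀ p ∈ U', ∀ p' ∈ U', g p = g p' := by
  classical
  rcases U.eq_empty_or_nonempty with h0 | hne
  · exact ⟨∅, by simp, by simp [h0], by simp⟩
  obtain ⟨y, hy, hmax⟩ := Finset.exists_max_image (U.image g) (fun y => (U.filter fun p => g p = y).card)
    (hne.image g)
  refine ⟨U.filter fun p => g p = y, Finset.filter_subset _ _, ?_, ?_⟩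
  · calc U.card ≤ (U.filter fun p => g p = y).card * (U.image g).card :=
          Finset.card_le_mul_card_image U _ hmax
      _ ≤ D * _ := by rw [mul_comm]; exact Nat.mul_le_mul_right _ h
  · intro p hp p' hp'
    rw [(Finset.mem_filter.mp hp).2, (Finset.mem_filter.mp hp').2]

theorem pigeon_family {π ι β : Type*} [DecidableEq β] (I : Finset ι) (g : ι → π → β)
    (D : ℕ) (U : Finset π) (h : ∀ i ∈ I, (U.image (g i)).card ≤ D) :
    ∃ U' ⊆ U, U.card ≤ D ^ I.card * U'.card ∧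
      ∀ i ∈ I, ∀ p ∈ U', ∀ p' ∈ U', g i p = g i p' := by
  classical
  induction I using Finset.induction_on with
  | empty => exact ⟨U, subset_rfl, by simp, by simp⟩
  | insert a I ha ih =>
    obtain ⟨U1, h1, h2, h3⟩ := ih fun i hi => h i (Finset.mem_insert_of_mem hi)
    obtain ⟨U2, h4, h5, h6⟩ := pigeon U1 (g a) D
      ((Finset.card_le_card (Finset.image_subset_image h1)).trans
        (h a (Finset.mem_insert_self a I)))
    refine ⟨U2, h4.trans h1, ?_, ?_⟩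
    · rw [Finset.card_insert_of_notMem ha, pow_succ, mul_assoc]
      exact h2.trans (Nat.mul_le_mul_left _ h5)
    · intro i hi p hp p' hp'
      rcases Finset.mem_insert.mp hi with rfl | hi
      · exact h6 p hp p' hp'
      · exact h3 i hi p (h4 hp) p' (h4 hp')

end Crest.Agent.R22.Select859
end

-- ▼ part R22/Bounded859
section

/-! Row 22: relations with bounded coefficients (helper859).

`exists_relation_bounded` : all `ι × ι` minors vanish ⇒ a non-trivial relation whose coefficients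
are (up to sign) minors, hence bounded by `s! ∏ B_i`. -/

set_option autoImplicit false

open Finset Matrix

namespace Crest.Agent.R22.Bounded859

section rel
variable {ι P : Type*} [Fintype ι] [DecidableEq ι]

/-- a non-vanishing `n × n` minor -/
def Minor (S : Set P) (F : ι → P → ℤ) (n : ℕ) : Prop :=
  ∃ (g : Fin n → ι) (x : Fin n → P), Function.Injective g ∧ (∀ i, x i ∈ S) ∧
    (Matrix.of fun i j => F (g i) (x j)).det ≠ 0

omit [Fintype ι] [DecidableEq ι] in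
theorem minor_zero (S : Set P) (F : ι → P → ℤ) : Minor S F 0 :=
  ⟨Fin.elim0, Fin.elim0, fun i => i.elim0, fun i => i.elim0, by simp⟩

theorem not_minor_card (S : Set P) (F : ι → P → ℤ)
    (h : ∀ x : ι → P, (∀ i, x i ∈ S) → (Matrix.of fun i j => F i (x j)).det = 0) :
    ¬ Minor S F (Fintype.card ι) := by
  rintro ⟨g, x, hg, hx, hdet⟩
  have hbij : Function.Bijective g :=
    (Fintype.bijective_iff_injective_and_card g).2 ⟨hg, by simp⟩
  let e : Fin (Fintype.card ι) ≃ ι := Equiv.ofBijective g hbij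
  apply hdet
  have h1 := h (fun i => x (e.symm i)) (fun i => hx _)
  have h2 := Matrix.det_submatrix_equiv_self e (Matrix.of fun i j => F i (x (e.symm j)))
  rw [h1] at h2
  rw [← h2]
  congr 1
  ext i j
  simp [e]

theorem exists_relation_bounded (S : Set P) (F : ι → P → ℤ)
    (h : ∀ x : ι → P, (∀ i, x i ∈ S) → (Matrix.of fun i j => F i (x j)).det = 0)
    (B : ι → ℝ) (hB1 : ∀ i, 1 ≤ B i) (hB : ∀ p ∈ S, ∀ i, |(F i p : ℝ)| ≤ B i) :
    ∃ a : ι → ℤ, a ≠ 0 ∧ (∀ p ∈ S, ∑ i, a i * F i p = 0) ∧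
      ∀ i, |(a i : ℝ)| ≤ (Fintype.card ι).factorial * ∏ i, B i := by
  classical
  have hex : ∃ n, ¬ Minor S F (n + 1) := by
    by_contra hcon
    push Not at hcon
    rcases Nat.eq_zero_or_pos (Fintype.card ι) with h0 | h0
    · have := not_minor_card S F h
      rw [h0] at this
      exact this (minor_zero S F)
    · have := hcon (Fintype.card ι - 1)
      rw [Nat.sub_add_cancel h0] at this
      exact not_minor_card S F h this
  set r := Nat.find hex with hr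
  have hr1 : ¬ Minor S F (r + 1) := Nat.find_spec hex
  have hr0 : Minor S F r := by
    rcases Nat.eq_zero_or_pos r with h0 | h0
    · rw [h0]; exact minor_zero S F
    · have := Nat.find_min hex (m := r - 1) (by omega)
      rw [not_not, Nat.sub_add_cancel h0] at this
      exact this
  obtain ⟨g, x, hg, hx, hdet⟩ := hr0
  have hrcard : r < Fintype.card ι := by
    have h1 : r ≤ Fintype.card ι := by
      simpa using Fintype.card_le_of_injective g hg
    rcases h1.lt_or_eq with h2 | h2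
    · exact h2
    · exfalso
      have := not_minor_card S F h
      rw [← h2] at this
      exact this ⟨g, x, hg, hx, hdet⟩
  have hi0 : ∃ i0, i0 ∉ Set.range g := by
    by_contra hcon
    push Not at hcon
    have : Function.Surjective g := fun i => hcon i
    have := Fintype.card_le_of_surjective g this
    simp at this
    omega
  obtain ⟨i0, hi0⟩ := hi0
  let g' : Fin (r + 1) → ι := Fin.snoc g i0
  have hg' : Function.Injective g' := by
    refine Fin.snoc_injective_iff.mpr ⟨hg, hi0⟩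
  let c : Fin (r + 1) → ℤ := fun k => (-1) ^ ((k : ℕ) + r) *
    (Matrix.of fun i j => F (g' (k.succAbove i)) (x j)).det
  have hc : ∀ p ∈ S, ∑ k, c k * F (g' k) p = 0 := by
    intro p hp
    have h1 : (Matrix.of fun i j => F (g' i) ((Fin.snoc x p : Fin (r + 1) → P) j)).det = 0 := by
      by_contra hne
      apply hr1
      refine ⟨g', Fin.snoc x p, hg', fun i => ?_, hne⟩
      refine Fin.lastCases ?_ (fun i => ?_) i
      · simpa using hp
      · simpa using hx i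
    rw [Matrix.det_succ_column _ (Fin.last r)] at h1
    rw [← h1]
    refine Finset.sum_congr rfl fun k _ => ?_
    simp only [c, Matrix.of_apply, Fin.snoc_last, Fin.val_last]
    have : (Matrix.of fun i j => F (g' (k.succAbove i)) (x j)) =
        (Matrix.of fun i j => F (g' i) ((Fin.snoc x p : Fin (r + 1) → P) j)).submatrix
          k.succAbove (Fin.last r).succAbove := by
      ext i j
      simp [Fin.succAbove_last]
    rw [this]
    ring
  have hbound : ∀ k, |(c k : ℝ)| ≤ (Fintype.card ι).factorial * ∏ i, B i := by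
    intro k
    have h1 : |(c k : ℝ)| = |((Matrix.of fun i j => F (g' (k.succAbove i)) (x j)).det : ℝ)| := by
      simp only [c]
      push_cast
      rw [abs_mul, abs_pow, abs_neg, abs_one, one_pow, one_mul]
    rw [h1]
    have h2 := DetCore.abs_det_le (Matrix.of fun i j => F (g' (k.succAbove i)) (x j))
      (fun i => B (g' (k.succAbove i))) (fun i j => hB _ (hx j) _)
    refine h2.trans ?_
    have h3 : ∏ i, B (g' (k.succAbove i)) ≤ ∏ i, B i := by
      have h4 : ∏ i, B (g' (k.succAbove i)) =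
          ∏ i ∈ univ.image (fun i => g' (k.succAbove i)), B i := by
        rw [Finset.prod_image]
        intro a _ b _ hab
        exact Fin.succAbove_right_injective (hg' hab)
      rw [h4]
      rw [← Finset.prod_mul_prod_compl (univ.image (fun i => g' (k.succAbove i))) B]
      have h7 : (1 : ℝ) ≤ ∏ i ∈ (univ.image (fun i => g' (k.succAbove i)))ᶜ, B i := by
        have h8 := Finset.prod_le_prod (s := (univ.image (fun i => g' (k.succAbove i)))ᶜ)
          (f := fun _ => (1 : ℝ)) (g := B) (fun _ _ => zero_le_one) (fun i _ => hB1 i)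
        simpa using h8
      exact le_mul_of_one_le_right
        (Finset.prod_nonneg fun i _ => zero_le_one.trans (hB1 _)) h7
    have h5 : (0 : ℝ) ≤ ∏ i, B (g' (k.succAbove i)) :=
      Finset.prod_nonneg fun i _ => zero_le_one.trans (hB1 _)
    have h6 : (((Fintype.card (Fin r)).factorial : ℕ) : ℝ) ≤ (Fintype.card ι).factorial := by
      rw [Fintype.card_fin]
      exact_mod_cast Nat.factorial_le hrcard.le
    exact mul_le_mul h6 h3 h5 (by positivity)
  refine ⟨fun i => ∑ k ∈ univ.filter (fun k => g' k = i), c k, ?_, ?_, ?_⟩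
  · intro h0
    have h1 := congrFun h0 i0
    simp only [Pi.zero_apply] at h1
    have h2 : univ.filter (fun k => g' k = i0) = {Fin.last r} := by
      ext k
      simp only [Finset.mem_filter, Finset.mem_univ, true_and, Finset.mem_singleton]
      constructor
      · intro hk
        apply hg'
        rw [hk]; simp [g']
      · rintro rfl
        simp [g']
    rw [h2, Finset.sum_singleton] at h1
    simp only [c, Fin.val_last] at h1
    rcases mul_eq_zero.mp h1 with h3 | h3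
    · exact absurd h3 (pow_ne_zero _ (by norm_num))
    · apply hdet
      rw [← h3]
      congr 1
      ext i j
      simp [g', Fin.succAbove_last]
  · intro p hp
    rw [← hc p hp]
    have h1 : ∀ i, (∑ k ∈ univ.filter (fun k => g' k = i), c k) * F i p =
        ∑ k ∈ univ.filter (fun k => g' k = i), c k * F (g' k) p := by
      intro i
      rw [Finset.sum_mul]
      refine Finset.sum_congr rfl fun k hk => ?_
      rw [(Finset.mem_filter.mp hk).2]
    simp only [h1]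
    exact Finset.sum_fiberwise_of_maps_to (fun _ _ => Finset.mem_univ _) _
  · intro i
    by_cases hi : ∃ k, g' k = i
    · obtain ⟨k, hk⟩ := hi
      have h2 : univ.filter (fun k' => g' k' = i) = {k} := by
        ext k'
        simp only [Finset.mem_filter, Finset.mem_univ, true_and, Finset.mem_singleton]
        constructor
        · intro hk'
          apply hg'
          rw [hk', hk]
        · rintro rfl
          exact hk
      simp only [h2, Finset.sum_singleton]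
      exact hbound k
    · have h2 : univ.filter (fun k' => g' k' = i) = ∅ := by
        ext k'
        simp only [Finset.mem_filter, Finset.mem_univ, true_and, Finset.notMem_empty, iff_false]
        exact fun hk' => hi ⟨k', hk'⟩
      simp only [h2, Finset.sum_empty]
      push_cast
      rw [abs_zero]
      have : (0 : ℝ) ≤ ∏ i, B i := Finset.prod_nonneg fun i _ => zero_le_one.trans (hB1 _)
      positivity

end rel




end Crest.Agent.R22.Bounded859
end

-- ▼ part R22/Chain859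
section

/-! Row 22: chain lemmas (helper859).

* `exists_bounded_of_exists` : if a relation exists then a bounded one exists.
* `exists_bounded_poly` : the same for polynomials with support in a given finite set.
* `chain_degreeOf`, `chain_grad` : every point of a set on which some nonzero polynomial of
  degree `≤ D` vanishes is a "good" zero of one of at most `D + 1` polynomials attached to the set.

-/

set_option autoImplicit false

open Finset MvPolynomial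

namespace Crest.Agent.R22.Chain859

open PolyKit

section bounded

theorem exists_bounded_of_exists {ι P : Type*} [Fintype ι] [DecidableEq ι] (S : Set P)
    (F : ι → P → ℤ) (h : ∃ a : ι → ℤ, a ≠ 0 ∧ ∀ p ∈ S, ∑ i, a i * F i p = 0)
    (B : ι → ℝ) (hB1 : ∀ i, 1 ≤ B i) (hB : ∀ p ∈ S, ∀ i, |(F i p : ℝ)| ≤ B i) :
    ∃ a : ι → ℤ, a ≠ 0 ∧ (∀ p ∈ S, ∑ i, a i * F i p = 0) ∧
      ∀ i, |(a i : ℝ)| ≤ (Fintype.card ι).factorial * ∏ i, B i := by
  refine Bounded859.exists_relation_bounded S F (fun x hx => ?_) B hB1 hB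
  obtain ⟨a, ha, h⟩ := h
  rw [← Matrix.exists_vecMul_eq_zero_iff]
  refine ⟨a, ha, ?_⟩
  ext j
  simpa [Matrix.vecMul, dotProduct] using h (x j) (hx j)

variable {σ P : Type*}

theorem eval_eq_sum_of_subset (G : MvPolynomial σ ℤ) (Λ : Finset (σ →₀ ℕ)) (h : G.support ⊆ Λ)
    (x : σ → ℤ) : eval x G = ∑ e ∈ Λ, G.coeff e * eval x (monomial e (1 : ℤ)) := by
  have h1 : eval x G = ∑ e ∈ G.support, G.coeff e * eval x (monomial e (1 : ℤ)) := by
    rw [MvPolynomial.eval_eq]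
    refine Finset.sum_congr rfl fun e _ => ?_
    rw [MvPolynomial.eval_monomial, one_mul]
    rfl
  rw [h1]
  refine Finset.sum_subset h fun e _ he => ?_
  rw [MvPolynomial.notMem_support_iff.mp he, zero_mul]

/-- bounded polynomial relation with prescribed support -/
theorem exists_bounded_poly (Λ : Finset (σ →₀ ℕ)) (D H : ℕ) (hD : ∀ e ∈ Λ, e.degree ≤ D)
    (hH : 1 ≤ H) (T : Set P) (x : P → σ → ℤ) (hx : ∀ p ∈ T, ∀ i, (x p i).natAbs ≤ H)
    (hrel : ∃ G : MvPolynomial σ ℤ, G ≠ 0 ∧ G.support ⊆ Λ ∧ ∀ p ∈ T, eval (x p) G = 0) :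
    ∃ G : MvPolynomial σ ℤ, G ≠ 0 ∧ G.support ⊆ Λ ∧ (∀ p ∈ T, eval (x p) G = 0) ∧
      len G ≤ Λ.card * (Λ.card.factorial * H ^ (D * Λ.card)) := by
  classical
  obtain ⟨G, hG0, hGs, hG⟩ := hrel
  have hbd : ∀ p ∈ T, ∀ e : Λ,
      |((eval (x p) (monomial e.1 (1 : ℤ)) : ℤ) : ℝ)| ≤ (H : ℝ) ^ D := by
    intro p hp e
    have h1 := natAbs_eval_le (monomial e.1 (1 : ℤ)) (x p) H D hH (hx p hp)
      (by rw [MvPolynomial.totalDegree_monomial _ one_ne_zero]
          exact hD e.1 e.2)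
    rw [len_monomial] at h1
    simp only [Int.natAbs_one, one_mul] at h1
    rw [← Int.cast_abs, Int.abs_eq_natAbs]
    exact_mod_cast h1
  obtain ⟨a, ha0, ha, hab⟩ := exists_bounded_of_exists T
    (fun (e : Λ) p => eval (x p) (monomial e.1 (1 : ℤ)))
    ⟨fun e => G.coeff e.1, by
      intro h0
      apply hG0
      ext e
      by_cases he : e ∈ Λ
      · simpa using congrFun h0 ⟨e, he⟩
      · have : e ∉ G.support := fun h => he (hGs h)
        rw [MvPolynomial.notMem_support_iff.mp this, coeff_zero], by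
      intro p hp
      rw [← hG p hp, eval_eq_sum_of_subset G Λ hGs, ← Finset.sum_coe_sort Λ]⟩
    (fun _ => (H : ℝ) ^ D) (fun _ => one_le_pow₀ (by exact_mod_cast hH)) hbd
  let b : (σ →₀ ℕ) → ℤ := fun e => if h : e ∈ Λ then a ⟨e, h⟩ else 0
  let G' : MvPolynomial σ ℤ := ∑ e ∈ Λ, monomial e (b e)
  have hco : ∀ e, G'.coeff e = b e := by
    intro e
    simp only [G', coeff_sum, coeff_monomial]
    rw [Finset.sum_ite_eq']
    split_ifs with h
    · rfl
    · simp [b, h]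
  have hsup : G'.support ⊆ Λ := by
    intro e he
    by_contra h
    rw [MvPolynomial.mem_support_iff, hco] at he
    exact he (by simp [b, h])
  refine ⟨G', ?_, hsup, ?_, ?_⟩
  · intro h0
    apply ha0
    funext e
    have := hco e.1
    rw [h0, coeff_zero] at this
    simp only [b, e.2, dif_pos] at this
    exact this.symm
  · intro p hp
    rw [eval_eq_sum_of_subset G' Λ hsup, ← ha p hp, ← Finset.sum_coe_sort Λ]
    refine Finset.sum_congr rfl fun e _ => ?_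
    rw [hco]
    simp [b]
  · rw [len_eq_sum_of_subset G' Λ hsup]
    refine (Finset.sum_le_card_nsmul Λ _ (Λ.card.factorial * H ^ (D * Λ.card)) fun e he => ?_).trans
      (by rw [smul_eq_mul])
    rw [hco]
    simp only [b, he, dif_pos]
    have h1 := hab ⟨e, he⟩
    rw [Finset.prod_const, Finset.card_univ, Fintype.card_coe, ← pow_mul] at h1
    rw [← Int.cast_abs, Int.abs_eq_natAbs] at h1
    exact_mod_cast h1

end bounded

section monos

variable (σ : Type*) [Fintype σ] [DecidableEq σ]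

/-- exponents of total degree `≤ D` -/
def monos (D : ℕ) : Finset (σ →₀ ℕ) :=
  (range (D + 1)).biUnion fun n => (univ : Finset σ).finsuppAntidiag n

variable {σ}

theorem mem_monos {D : ℕ} {e : σ →₀ ℕ} : e ∈ monos σ D ↔ e.degree ≤ D := by
  simp only [monos, mem_biUnion, mem_range, mem_finsuppAntidiag]
  rw [Finsupp.degree_eq_sum]
  constructor
  · rintro ⟨n, hn, h1, _⟩
    have h2 : ∑ i, e i = n := h1
    omega
  · intro h
    exact ⟨_, Nat.lt_succ_of_le h, rfl, subset_univ _⟩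

theorem support_subset_monos {D : ℕ} {G : MvPolynomial σ ℤ} :
    G.support ⊆ monos σ D ↔ G.totalDegree ≤ D := by
  rw [MvPolynomial.totalDegree, Finset.sup_le_iff]
  constructor
  · intro h s hs
    exact mem_monos.mp (h hs)
  · intro h s hs
    exact mem_monos.mpr (h s hs)

/-- height bound for Cramer relations of degree `≤ D` at points of size `≤ H` -/
def hgt (σ : Type*) [Fintype σ] [DecidableEq σ] (D H : ℕ) : ℕ :=
  (monos σ D).card * ((monos σ D).card.factorial * H ^ (D * (monos σ D).card))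

theorem hgt_mono_card (D H : ℕ) (hH : 1 ≤ H) (Λ : Finset (σ →₀ ℕ)) (h : Λ ⊆ monos σ D) :
    Λ.card * (Λ.card.factorial * H ^ (D * Λ.card)) ≤ hgt σ D H := by
  have h1 := Finset.card_le_card h
  exact Nat.mul_le_mul h1 (Nat.mul_le_mul (Nat.factorial_le h1)
    (Nat.pow_le_pow_right hH (Nat.mul_le_mul_left _ h1)))

theorem hgt_mono {D D' H : ℕ} (hH : 1 ≤ H) (h : D ≤ D') : hgt σ D H ≤ hgt σ D' H := by
  have h1 : monos σ D ⊆ monos σ D' := fun e he => mem_monos.mpr ((mem_monos.mp he).trans h)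
  have h2 := Finset.card_le_card h1
  exact Nat.mul_le_mul h2 (Nat.mul_le_mul (Nat.factorial_le h2)
    (Nat.pow_le_pow_right hH (Nat.mul_le_mul h h2)))

/-- bounded relation of total degree `≤ D` and degree `≤ m` in the variable `i0` -/
theorem exists_bounded_degreeOf {P : Type*} (i0 : σ) (m D H : ℕ) (hH : 1 ≤ H) (T : Set P)
    (x : P → σ → ℤ) (hx : ∀ p ∈ T, ∀ i, (x p i).natAbs ≤ H)
    (hrel : ∃ G : MvPolynomial σ ℤ, G ≠ 0 ∧ G.totalDegree ≤ D ∧ G.degreeOf i0 ≤ m ∧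
      ∀ p ∈ T, eval (x p) G = 0) :
    ∃ G : MvPolynomial σ ℤ, G ≠ 0 ∧ G.totalDegree ≤ D ∧ G.degreeOf i0 ≤ m ∧ len G ≤ hgt σ D H ∧
      ∀ p ∈ T, eval (x p) G = 0 := by
  obtain ⟨G, hG0, hGD, hGm, hG⟩ := hrel
  have hsub : (monos σ D).filter (fun e => e i0 ≤ m) ⊆ monos σ D := Finset.filter_subset _ _
  obtain ⟨G', h1, h2, h3, h4⟩ := exists_bounded_poly ((monos σ D).filter fun e => e i0 ≤ m) D H
    (fun e he => mem_monos.mp (hsub he)) hH T x hx ⟨G, hG0, by
      intro e he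
      rw [Finset.mem_filter]
      exact ⟨support_subset_monos.mpr hGD he, (degreeOf_le_iff.mp hGm) e he⟩, hG⟩
  refine ⟨G', h1, support_subset_monos.mp (h2.trans hsub), ?_, h4.trans (hgt_mono_card D H hH _ hsub),
    h3⟩
  rw [degreeOf_le_iff]
  intro e he
  exact (Finset.mem_filter.mp (h2 he)).2

/-- bounded relation of total degree `≤ D` -/
theorem exists_bounded_totalDegree {P : Type*} (D H : ℕ) (hH : 1 ≤ H) (T : Set P)
    (x : P → σ → ℤ) (hx : ∀ p ∈ T, ∀ i, (x p i).natAbs ≤ H)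
    (hrel : ∃ G : MvPolynomial σ ℤ, G ≠ 0 ∧ G.totalDegree ≤ D ∧ ∀ p ∈ T, eval (x p) G = 0) :
    ∃ G : MvPolynomial σ ℤ, G ≠ 0 ∧ G.totalDegree ≤ D ∧ len G ≤ hgt σ D H ∧
      ∀ p ∈ T, eval (x p) G = 0 := by
  obtain ⟨G, hG0, hGD, hG⟩ := hrel
  obtain ⟨G', h1, h2, h3, h4⟩ := exists_bounded_poly (monos σ D) D H
    (fun e he => mem_monos.mp he) hH T x hx ⟨G, hG0, support_subset_monos.mpr hGD, hG⟩
  exact ⟨G', h1, support_subset_monos.mp h2, h4.trans (hgt_mono_card D H hH _ (subset_refl _)), h3⟩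

end monos

section deriv

variable {σ : Type*}

theorem coeff_pderiv_ne {i : σ} {G : MvPolynomial σ ℤ} {e : σ →₀ ℕ} (he : e ∈ G.support)
    (hi : 1 ≤ e i) : (pderiv i G).coeff (e - Finsupp.single i 1) ≠ 0 := by
  classical
  rw [coeff_pderiv]
  have h1 : e - Finsupp.single i 1 + Finsupp.single i 1 = e := by
    apply tsub_add_cancel_of_le
    rw [Finsupp.single_le_iff]
    exact hi
  rw [h1]
  refine mul_ne_zero (MvPolynomial.mem_support_iff.mp he) ?_
  positivity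

/-- the derivative in a variable that occurs is nonzero -/
theorem pderiv_ne_zero {i : σ} {G : MvPolynomial σ ℤ} (h : 1 ≤ G.degreeOf i) : pderiv i G ≠ 0 := by
  classical
  intro h0
  have : ¬ ∀ e ∈ G.support, e i ≤ 0 := by
    intro hcon
    have := degreeOf_le_iff.mpr hcon
    omega
  push Not at this
  obtain ⟨e, he, hi⟩ := this
  apply coeff_pderiv_ne he (i := i) hi
  rw [h0, coeff_zero]

theorem support_pderiv {i : σ} {G : MvPolynomial σ ℤ} {m : σ →₀ ℕ} (hm : m ∈ (pderiv i G).support) :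
    m + Finsupp.single i 1 ∈ G.support := by
  rw [MvPolynomial.mem_support_iff, coeff_pderiv] at hm
  rw [MvPolynomial.mem_support_iff]
  exact left_ne_zero_of_mul hm

theorem degreeOf_pderiv_le {i : σ} {G : MvPolynomial σ ℤ} :
    (pderiv i G).degreeOf i ≤ G.degreeOf i - 1 := by
  classical
  rw [degreeOf_le_iff]
  intro m hm
  have h1 := (degreeOf_le_iff.mp (le_refl (G.degreeOf i))) _ (support_pderiv hm)
  simp at h1
  omega

theorem totalDegree_pderiv_le {i : σ} {G : MvPolynomial σ ℤ} :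
    (pderiv i G).totalDegree ≤ G.totalDegree - 1 := by
  classical
  rw [MvPolynomial.totalDegree, Finset.sup_le_iff]
  intro m hm
  have h1 := le_totalDegree (support_pderiv hm)
  have h2 : ((m + Finsupp.single i 1).sum fun _ e => e) = (m.sum fun _ e => e) + 1 := by
    rw [Finsupp.sum_add_index' (by simp) (by simp)]
    simp
  rw [h2] at h1
  omega

end deriv

section chain

variable {σ P : Type*} [Fintype σ] [DecidableEq σ]

/-- **Chain lemma, distinguished variable `i0`.** If some nonzero polynomial of total degree `≤ D`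
and degree `≤ m` in the variable `i0` vanishes on `T`, then there are `m + 1` bounded polynomials
`G i` attached to `T` such that every point of `T` is a zero of some `G i` which does not involve
`i0`, or at which the derivative of `G i` with respect to `i0` is nonzero. -/
theorem chain_degreeOf (i0 : σ) (D H : ℕ) (hH : 1 ≤ H) (x : P → σ → ℤ) (m : ℕ) :
    ∀ T : Set P, (∀ p ∈ T, ∀ i, (x p i).natAbs ≤ H) →
    (∃ G : MvPolynomial σ ℤ, G ≠ 0 ∧ G.totalDegree ≤ D ∧ G.degreeOf i0 ≤ m ∧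
      ∀ p ∈ T, eval (x p) G = 0) →
    ∃ G : ℕ → MvPolynomial σ ℤ, (∀ i, G i ≠ 0 ∧ (G i).totalDegree ≤ D ∧ (G i).degreeOf i0 ≤ m ∧
        len (G i) ≤ hgt σ D H) ∧
      ∀ p ∈ T, ∃ i ≤ m, eval (x p) (G i) = 0 ∧
        ((G i).degreeOf i0 = 0 ∨ eval (x p) (pderiv i0 (G i)) ≠ 0) := by
  induction m with
  | zero =>
    intro T hx hrel
    obtain ⟨G, h1, h2, h3, h4, h5⟩ := exists_bounded_degreeOf i0 0 D H hH T x hx hrel
    exact ⟨fun _ => G, fun _ => ⟨h1, h2, h3, h4⟩, fun p hp =>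
      ⟨0, le_refl _, h5 p hp, Or.inl (Nat.le_zero.mp h3)⟩⟩
  | succ m ih =>
    intro T hx hrel
    obtain ⟨G, h1, h2, h3, h4, h5⟩ := exists_bounded_degreeOf i0 (m + 1) D H hH T x hx hrel
    by_cases h0 : G.degreeOf i0 = 0
    · exact ⟨fun _ => G, fun _ => ⟨h1, h2, h3, h4⟩, fun p hp =>
        ⟨0, Nat.zero_le _, h5 p hp, Or.inl h0⟩⟩
    · obtain ⟨G', h6, h7⟩ := ih {p ∈ T | eval (x p) (pderiv i0 G) = 0}
        (fun p hp => hx p hp.1)
        ⟨pderiv i0 G, pderiv_ne_zero (by omega), totalDegree_pderiv_le.trans (by omega),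
          degreeOf_pderiv_le.trans (by omega), fun p hp => hp.2⟩
      refine ⟨fun i => match i with
        | 0 => G
        | (i + 1) => G' i, ?_, ?_⟩
      · rintro (_ | i)
        · exact ⟨h1, h2, h3, h4⟩
        · obtain ⟨a, b, c, d⟩ := h6 i
          exact ⟨a, b, c.trans (Nat.le_succ m), d⟩
      · intro p hp
        by_cases hd : eval (x p) (pderiv i0 G) = 0
        · obtain ⟨i, hi, h8⟩ := h7 p ⟨hp, hd⟩
          exact ⟨i + 1, by omega, h8⟩
        · exact ⟨0, Nat.zero_le _, h5 p hp, Or.inr hd⟩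

/-- **Chain lemma, gradient version.** If some nonzero polynomial of total degree `≤ m`
vanishes on `T`, then there are `m + 1` bounded polynomials `R i` attached to `T` such that every
point of `T` is a smooth zero of some `R i`. -/
theorem chain_grad (H : ℕ) (hH : 1 ≤ H) (x : P → σ → ℤ) (m : ℕ) :
    ∀ T : Set P, (∀ p ∈ T, ∀ i, (x p i).natAbs ≤ H) →
    (∃ G : MvPolynomial σ ℤ, G ≠ 0 ∧ G.totalDegree ≤ m ∧ ∀ p ∈ T, eval (x p) G = 0) →
    ∃ R : ℕ → MvPolynomial σ ℤ, (∀ i, R i ≠ 0 ∧ (R i).totalDegree ≤ m ∧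
        len (R i) ≤ hgt σ m H) ∧
      ∀ p ∈ T, ∃ i ≤ m, ∃ j, eval (x p) (R i) = 0 ∧ eval (x p) (pderiv j (R i)) ≠ 0 := by
  induction m with
  | zero =>
    intro T hx hrel
    obtain ⟨G, h1, h2, h4, h5⟩ := exists_bounded_totalDegree 0 H hH T x hx hrel
    refine ⟨fun _ => G, fun _ => ⟨h1, h2, h4⟩, fun p hp => ?_⟩
    exfalso
    have h6 := MvPolynomial.totalDegree_eq_zero_iff_eq_C.mp (Nat.le_zero.mp h2)
    have h7 := h5 p hp
    rw [h6, eval_C] at h7
    rw [h7, map_zero] at h6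
    exact h1 h6
  | succ m ih =>
    intro T hx hrel
    obtain ⟨G, h1, h2, h4, h5⟩ := exists_bounded_totalDegree (m + 1) H hH T x hx hrel
    by_cases h0 : G.totalDegree = 0
    · refine ⟨fun _ => G, fun _ => ⟨h1, h2, h4⟩, fun p hp => ?_⟩
      exfalso
      have h6 := MvPolynomial.totalDegree_eq_zero_iff_eq_C.mp h0
      have h7 := h5 p hp
      rw [h6, eval_C] at h7
      rw [h7, map_zero] at h6
      exact h1 h6
    · have hj : ∃ j, 1 ≤ G.degreeOf j := by
        by_contra hcon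
        push Not at hcon
        apply h0
        rw [MvPolynomial.totalDegree_eq_zero_iff]
        intro e he j
        have := (degreeOf_le_iff.mp (le_refl (G.degreeOf j))) e he
        have := hcon j
        omega
      obtain ⟨j, hj⟩ := hj
      obtain ⟨G', h6, h7⟩ := ih {p ∈ T | eval (x p) (pderiv j G) = 0}
        (fun p hp => hx p hp.1)
        ⟨pderiv j G, pderiv_ne_zero hj, totalDegree_pderiv_le.trans (by omega), fun p hp => hp.2⟩
      refine ⟨fun i => match i with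
        | 0 => G
        | (i + 1) => G' i, ?_, ?_⟩
      · rintro (_ | i)
        · exact ⟨h1, h2, h4⟩
        · obtain ⟨a, b, c⟩ := h6 i
          exact ⟨a, b.trans (Nat.le_succ m), c.trans (hgt_mono hH (Nat.le_succ m))⟩
      · intro p hp
        by_cases hd : eval (x p) (pderiv j G) = 0
        · obtain ⟨i, hi, h8⟩ := h7 p ⟨hp, hd⟩
          exact ⟨i + 1, by omega, h8⟩
        · exact ⟨0, Nat.zero_le _, j, h5 p hp, hd⟩

end chain

end Crest.Agent.R22.Chain859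
end

-- ▼ part R22/Tuple859
section

/-! Row 22: tuple lemma and free set lemma (choice of auxiliary primes), helper859. -/
set_option autoImplicit false

open Finset
namespace Crest.Agent.R22.Tuple859
section tuple

variable {π : Type*} [DecidableEq π]

theorem card_coord_mem_le (PP : Finset π) (s B : ℕ) (j : Fin s) (b : (Fin s → π) → Finset π)
    (hdep : ∀ x y : Fin s → π, (∀ i, i ≠ j → x i = y i) → b x = b y)
    (hB : ∀ x, (∀ i, x i ∈ PP) → (b x).card ≤ B) :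
    ((Fintype.piFinset fun _ : Fin s => PP).filter fun x => x j ∈ b x).card ≤
      B * PP.card ^ (s - 1) := by
  classical
  set X := (Fintype.piFinset fun _ : Fin s => PP).filter fun x => x j ∈ b x with hX
  let φ : (Fin s → π) → ({i : Fin s // i ≠ j} → π) := fun x i => x i
  have h1 : X.card ≤ B * (X.image φ).card := by
    refine Finset.card_le_mul_card_image X B fun a ha => ?_
    obtain ⟨x0, hx0, rfl⟩ := Finset.mem_image.mp ha
    have hx0' := Finset.mem_filter.mp hx0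
    refine le_trans ?_ (hB x0 (Fintype.mem_piFinset.mp hx0'.1))
    refine Finset.card_le_card_of_injOn (fun x => x j) ?_ ?_
    · intro x hx
      have hx' := Finset.mem_filter.mp hx
      have hx'' := Finset.mem_filter.mp hx'.1
      have : b x = b x0 := hdep x x0 fun i hi => congrFun hx'.2 ⟨i, hi⟩
      rw [← this]
      exact hx''.2
    · intro x hx y hy hxy
      have hx' := (Finset.mem_filter.mp hx).2
      have hy' := (Finset.mem_filter.mp hy).2
      funext i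
      by_cases hi : i = j
      · subst hi; exact hxy
      · exact congrFun (hx'.trans hy'.symm) ⟨i, hi⟩
  have h2 : (X.image φ).card ≤ PP.card ^ (s - 1) := by
    have h3 : X.image φ ⊆ Fintype.piFinset fun _ : {i : Fin s // i ≠ j} => PP := by
      intro y hy
      obtain ⟨x, hx, rfl⟩ := Finset.mem_image.mp hy
      rw [Fintype.mem_piFinset]
      intro i
      exact Fintype.mem_piFinset.mp (Finset.mem_filter.mp hx).1 _
    refine (Finset.card_le_card h3).trans ?_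
    rw [Fintype.card_piFinset, Finset.prod_const, Finset.card_univ]
    simp
  exact h1.trans (Nat.mul_le_mul_left _ h2)

/-- **Tuple lemma** (helper232's 2651 (1)). -/
theorem exists_tuple (PP : Finset π) (s B : ℕ) (bad : Finset (Fin s) → (Fin s → π) → Finset π)
    (hdep : ∀ A x y, (∀ i ∈ A, x i = y i) → bad A x = bad A y)
    (hB : ∀ A x, (∀ i, x i ∈ PP) → (bad A x).card ≤ B)
    (hcard : s * 2 ^ s * B + s * s < PP.card) :
    ∃ x : Fin s → π, (∀ i, x i ∈ PP) ∧ Function.Injective x ∧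
      ∀ A, ∀ j, j ∉ A → x j ∉ bad A x := by
  classical
  rcases Nat.eq_zero_or_pos s with hs | hs
  · subst hs
    exact ⟨Fin.elim0, fun i => i.elim0, fun i => i.elim0, fun A j => j.elim0⟩
  by_contra hcon
  push Not at hcon
  set X := Fintype.piFinset fun _ : Fin s => PP with hX
  set X1 : Finset (Fin s) × Fin s → Finset (Fin s → π) := fun p =>
    if p.2 ∈ p.1 then ∅ else X.filter fun x => x p.2 ∈ bad p.1 x with hX1
  set X2 : Fin s × Fin s → Finset (Fin s → π) := fun p =>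
    if p.1 = p.2 then ∅ else X.filter fun x => x p.2 ∈ ({x p.1} : Finset π) with hX2
  have hcover : X ⊆ (univ.biUnion X1) ∪ (univ.biUnion X2) := by
    intro x hx
    have hx' := Fintype.mem_piFinset.mp hx
    rw [Finset.mem_union, Finset.mem_biUnion, Finset.mem_biUnion]
    by_cases hinj : Function.Injective x
    · obtain ⟨A, j, hj, hbad⟩ := hcon x hx' hinj
      left
      refine ⟨(A, j), Finset.mem_univ _, ?_⟩
      simp only [hX1, hj, if_false]
      exact Finset.mem_filter.mpr ⟨hx, hbad⟩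
    · right
      simp only [Function.Injective, not_forall] at hinj
      obtain ⟨i, j, hij, hne⟩ := hinj
      refine ⟨(i, j), Finset.mem_univ _, ?_⟩
      simp only [hX2, hne, if_false]
      exact Finset.mem_filter.mpr ⟨hx, by rw [hij]; exact Finset.mem_singleton_self _⟩
  have h1 : ∀ p, (X1 p).card ≤ B * PP.card ^ (s - 1) := by
    intro p
    simp only [hX1]
    split_ifs with h
    · simp
    · exact card_coord_mem_le PP s B p.2 (bad p.1)
        (fun x y hxy => hdep _ _ _ fun i hi => hxy i fun h' => h (h' ▸ hi)) (hB p.1)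
  have h2 : ∀ p, (X2 p).card ≤ 1 * PP.card ^ (s - 1) := by
    intro p
    simp only [hX2]
    split_ifs with h
    · simp
    · exact card_coord_mem_le PP s 1 p.2 (fun x => {x p.1})
        (fun x y hxy => by rw [hxy p.1 h]) (fun x _ => by simp)
  have h3 : X.card = PP.card ^ s := by
    rw [hX, Fintype.card_piFinset]; simp
  have h4 : X.card ≤ (s * 2 ^ s * B + s * s) * PP.card ^ (s - 1) := by
    calc X.card ≤ (univ.biUnion X1).card + (univ.biUnion X2).card :=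
          (Finset.card_le_card hcover).trans (Finset.card_union_le _ _)
      _ ≤ (∑ p, (X1 p).card) + ∑ p, (X2 p).card :=
          add_le_add Finset.card_biUnion_le Finset.card_biUnion_le
      _ ≤ (∑ _p : Finset (Fin s) × Fin s, B * PP.card ^ (s - 1)) +
            ∑ _p : Fin s × Fin s, 1 * PP.card ^ (s - 1) :=
          add_le_add (Finset.sum_le_sum fun p _ => h1 p) (Finset.sum_le_sum fun p _ => h2 p)
      _ = (s * 2 ^ s * B + s * s) * PP.card ^ (s - 1) := by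
          simp only [Finset.sum_const, Finset.card_univ, Fintype.card_prod, Fintype.card_finset,
            Fintype.card_fin, smul_eq_mul]
          ring
  have h5 : PP.card ^ s = PP.card * PP.card ^ (s - 1) := by
    rw [← pow_succ']; congr 1; omega
  have h6 : 0 < PP.card ^ (s - 1) := by
    apply Nat.pow_pos; omega
  rw [h3, h5] at h4
  exact absurd (Nat.le_of_mul_le_mul_right h4 h6) (by omega)

/-- **Free set lemma**: subset version of the tuple lemma. -/
theorem exists_free_set (PP : Finset π) (s B : ℕ) (bad : Finset π → Finset π)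
    (hB : ∀ A ⊆ PP, (bad A).card ≤ B) (hcard : s * 2 ^ s * B + s * s < PP.card) :
    ∃ W ⊆ PP, W.card = s ∧ ∀ A ⊆ W, ∀ r ∈ W, r ∉ A → r ∉ bad A := by
  classical
  obtain ⟨x, hx, hinj, h⟩ := exists_tuple PP s B (fun A x => bad (A.image x))
    (fun A x y hxy => by
      have : A.image x = A.image y := Finset.image_congr fun i hi => hxy i hi
      simp only [this])
    (fun A x hx => hB _ (Finset.image_subset_iff.mpr fun i _ => hx i)) hcard
  refine ⟨univ.image x, Finset.image_subset_iff.mpr fun i _ => hx i, ?_, ?_⟩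
  · rw [Finset.card_image_of_injective _ hinj]; simp
  · intro A hA r hr hrA
    obtain ⟨j, _, rfl⟩ := Finset.mem_image.mp hr
    have h1 : A = (univ.filter fun i => x i ∈ A).image x := by
      ext a
      simp only [Finset.mem_image, Finset.mem_filter, Finset.mem_univ, true_and]
      constructor
      · intro ha
        obtain ⟨i, _, rfl⟩ := Finset.mem_image.mp (hA ha)
        exact ⟨i, ha, rfl⟩
      · rintro ⟨i, hi, rfl⟩
        exact hi
    have h2 := h (univ.filter fun i => x i ∈ A) j (by simpa using hrA)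
    rwa [← h1] at h2

end tuple
end Crest.Agent.R22.Tuple859
end

-- ▼ part R22/Levels859A
section

/-! Row 22: level bookkeeping, definitions and the level lemmas (helper859). -/

set_option autoImplicit false

open Finset

namespace Crest.Agent.R22.Levels859

open Crest.Agent.R022.Expand MvPolynomial
open Spec859 Select859 Chain859 Tuple859 PolyKit

/-- points of the slice -/
abbrev Pnt := Fin 2 → ℤ

/-- coordinates `(n, t_0, t_1)` -/
def v3 (n : Pnt → ℤ) (t : Pnt) : Fin 3 → ℤ := ![n t, t 0, t 1]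

/-- coordinates `(n, t_j)` -/
def v2 (n : Pnt → ℤ) (j : Fin 2) (t : Pnt) : Fin 2 → ℤ := ![n t, t j]

/-- `φ` is a polynomial in the parameters `s` modulo all powers of `l` -/
def ParExp {τ : Type} (U : Finset Pnt) (s : Pnt → τ → ℤ) (l : ℤ) (φ : Pnt → ℤ) : Prop :=
  ∀ (n' : Pnt → ℤ) (m : ℕ), HasExp (↑U : Set Pnt) s n' l m 0 φ

/-- `t` and `n` have expansions in two parameters -/
def TwoPar (U : Finset Pnt) (n : Pnt → ℤ) (l : ℤ) : Prop :=
  ∃ s : Pnt → Fin 2 → ℤ, (∀ t ∈ U, ∀ i, l ∣ s t i) ∧ (∀ i, ParExp U s l (fun t => t i)) ∧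
    ParExp U s l n

/-- `t` has expansions in one parameter -/
def OnePar (U : Finset Pnt) (l : ℤ) : Prop :=
  ∃ s : Pnt → Fin 1 → ℤ, (∀ t ∈ U, ∀ i, l ∣ s t i) ∧ ∀ i, ParExp U s l (fun t => t i)

/-- `t` and `n` have expansions in one parameter -/
def OneParN (U : Finset Pnt) (n : Pnt → ℤ) (l : ℤ) : Prop :=
  ∃ s : Pnt → Fin 1 → ℤ, (∀ t ∈ U, ∀ i, l ∣ s t i) ∧ (∀ i, ParExp U s l (fun t => t i)) ∧
    ParExp U s l n

theorem v3_succ (n : Pnt → ℤ) (t : Pnt) (i : Fin 2) : v3 n t i.succ = t i := by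
  fin_cases i <;> rfl
theorem v2_one (n : Pnt → ℤ) (j : Fin 2) (t : Pnt) : v2 n j t 1 = t j := rfl

/-- good zero of `G`, level 0 -/
def Phi0 (n : Pnt → ℤ) (D H : ℕ) (G : MvPolynomial (Fin 3) ℤ) (t : Pnt) : Prop :=
  G ≠ 0 ∧ G.totalDegree ≤ D ∧ len G ≤ hgt (Fin 3) D H ∧ eval (v3 n t) G = 0 ∧
    (G.degreeOf 0 = 0 ∨ eval (v3 n t) (pderiv 0 G) ≠ 0)

/-- smooth zero of a plane curve, level 1 -/
def Phi1 (D H : ℕ) (R : MvPolynomial (Fin 2) ℤ × Fin 2) (t : Pnt) : Prop :=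
  R.1 ≠ 0 ∧ R.1.totalDegree ≤ D ∧ len R.1 ≤ hgt (Fin 2) D H ∧ eval t R.1 = 0 ∧
    eval t (pderiv R.2 R.1) ≠ 0

/-- good zero of `E(n, t_j)`, level 2 -/
def Phi2 (n : Pnt → ℤ) (D H : ℕ) (j : Fin 2) (E : MvPolynomial (Fin 2) ℤ) (t : Pnt) : Prop :=
  E ≠ 0 ∧ E.totalDegree ≤ D ∧ len E ≤ hgt (Fin 2) D H ∧ eval (v2 n j t) E = 0 ∧
    (E.degreeOf 0 = 0 ∨ eval (v2 n j t) (pderiv 0 E) ≠ 0)

/-- residue code of `t` modulo `r ^ e`, `r ∈ Q` -/
def c0 (e : ℕ) (Q : Finset ℕ) (t : Pnt) : ℕ → Fin 2 → ℤ :=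
  fun r i => if r ∈ Q then t i % ((r : ℤ) ^ e) else 0

theorem c0_eq_iff (e : ℕ) (Q : Finset ℕ) (t t' : Pnt) :
    c0 e Q t = c0 e Q t' ↔ ∀ r ∈ Q, ∀ i, ((r : ℤ) ^ e) ∣ t i - t' i := by
  constructor
  · intro h r hr i
    have h1 := congrFun (congrFun h r) i
    simp only [c0, hr, if_true] at h1
    exact Int.ModEq.dvd (show t' i ≡ t i [ZMOD (r : ℤ) ^ e] from h1.symm)
  · intro h
    funext r i
    simp only [c0]
    split_ifs with hr
    · exact ((Int.modEq_iff_dvd.mpr (h r hr i)) : t' i ≡ t i [ZMOD (r : ℤ) ^ e]).symm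
    · rfl

section defs

variable (n : Pnt → ℤ) (sel0 : Finset ℕ → Pnt → MvPolynomial (Fin 3) ℤ)
  (sel1 : Finset ℕ → Pnt → MvPolynomial (Fin 2) ℤ × Fin 2)

/-- all the selected level-0 relations for `Q \ r` involve `n` -/
def nd0 (Q : Finset ℕ) (t : Pnt) : Prop := ∀ r ∈ Q, (sel0 (Q.erase r) t).degreeOf 0 ≠ 0

open Classical in
/-- level 1 code -/
noncomputable def c1 (a : ℕ) (Q : Finset ℕ) (t : Pnt) :
    (ℕ → Fin 2 → ℤ) × (ℕ → MvPolynomial (Fin 3) ℤ) × (ℕ → ℤ) :=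
  (c0 a Q t, fun r => if r ∈ Q then sel0 (Q.erase r) t else 0,
    fun r => if r ∈ Q ∧ nd0 sel0 Q t then n t % (r : ℤ) else 0)

/-- the primes of `Q` are good for the level-0 relations -/
def good1 (Q : Finset ℕ) (t : Pnt) : Prop :=
  ∀ r ∈ Q, (sel0 (Q.erase r) t).degreeOf 0 = 0 ∨
    ¬ (r : ℤ) ∣ eval (v3 n t) (pderiv 0 (sel0 (Q.erase r) t))

open Classical in
/-- level 2 code -/
noncomputable def c2 (a b : ℕ) (Q : Finset ℕ) (t : Pnt) :
    (ℕ → Fin 2 → ℤ) × (ℕ → Option ((ℕ → Fin 2 → ℤ) × (ℕ → MvPolynomial (Fin 3) ℤ) × (ℕ → ℤ))) ×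
      (ℕ → Option (MvPolynomial (Fin 2) ℤ × Fin 2)) :=
  (c0 b Q t, fun r => if r ∈ Q then some (c1 n sel0 a (Q.erase r) t) else none,
    fun r => if r ∈ Q then some (sel1 (Q.erase r) t) else none)

/-- the primes of `Q` are good for the level-1 relations -/
def good2 (Q : Finset ℕ) (t : Pnt) : Prop :=
  ∀ r ∈ Q, good1 n sel0 (Q.erase r) t ∧
    ¬ (r : ℤ) ∣ eval t (pderiv (sel1 (Q.erase r) t).2 (sel1 (Q.erase r) t).1)

end defs

/-- a polynomial not involving the variable `0` -/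
theorem exists_drop {r : ℕ} (G : MvPolynomial (Fin (r + 1)) ℤ) (hG : G ≠ 0)
    (h0 : G.degreeOf 0 = 0) :
    ∃ R : MvPolynomial (Fin r) ℤ, R ≠ 0 ∧ R.totalDegree ≤ G.totalDegree ∧
      ∀ x : Fin (r + 1) → ℤ, eval x G = eval (fun i => x i.succ) R := by
  have h1 : (finSuccEquiv ℤ r G).natDegree = 0 := by rw [natDegree_finSuccEquiv, h0]
  have h2 := Polynomial.eq_C_of_natDegree_eq_zero h1
  have hne : (finSuccEquiv ℤ r G).coeff 0 ≠ 0 := by
    intro h3
    rw [h3, map_zero] at h2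
    exact hG ((finSuccEquiv ℤ r).injective (by rw [h2, map_zero]))
  refine ⟨(finSuccEquiv ℤ r G).coeff 0, hne, ?_, fun x => ?_⟩
  · have := totalDegree_coeff_finSuccEquiv_add_le G 0 hne
    omega
  · rw [← eval₂_finSuccEquiv G x]
    conv_lhs => rw [h2]
    rw [Polynomial.eval₂_C]

/-- **Level 1**: a good class with constant level 1 code lies on a plane curve. -/
theorem level1 {T : Finset Pnt} {n : Pnt → ℤ} {PP : Finset ℕ} {h a D0 D1 H : ℕ}
    (ha : 1 ≤ a) (hD : D0 ≤ D1) (hprime : ∀ r ∈ PP, r.Prime)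
    (h1 : ∀ U ⊆ T, ∀ Q ⊆ PP, Q.card = h + 1 →
      (∃ G : MvPolynomial (Fin 3) ℤ, G ≠ 0 ∧ G.totalDegree ≤ D0 ∧ ∀ t ∈ U, eval (v3 n t) G = 0) →
      (∀ r ∈ Q, TwoPar U n ((r : ℤ) ^ a)) →
      ∃ R : MvPolynomial (Fin 2) ℤ, R ≠ 0 ∧ R.totalDegree ≤ D1 ∧ ∀ t ∈ U, eval t R = 0)
    (sel0 : Finset ℕ → Pnt → MvPolynomial (Fin 3) ℤ)
    (hsel0 : ∀ Q ⊆ PP, Q.card = h → ∀ t ∈ T, Phi0 n D0 H (sel0 Q t) t)
    (Q : Finset ℕ) (hQ : Q ⊆ PP) (hQc : Q.card = h + 1) (U : Finset Pnt) (hU : U ⊆ T)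
    (hgood : ∀ t ∈ U, good1 n sel0 Q t)
    (hc : ∀ t ∈ U, ∀ t' ∈ U, c1 n sel0 a Q t = c1 n sel0 a Q t') :
    ∃ R : MvPolynomial (Fin 2) ℤ, R ≠ 0 ∧ R.totalDegree ≤ D1 ∧ ∀ t ∈ U, eval t R = 0 := by
  classical
  rcases U.eq_empty_or_nonempty with h0 | ⟨t0, ht0⟩
  · exact ⟨1, one_ne_zero, by simp, by simp [h0]⟩
  -- constancy
  have hcong : ∀ t ∈ U, ∀ t' ∈ U, ∀ r ∈ Q, ∀ i, ((r : ℤ) ^ a) ∣ t i - t' i := by
    intro t ht t' ht'
    have := congrArg Prod.fst (hc t ht t' ht')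
    exact (c0_eq_iff a Q t t').mp this
  have hsel : ∀ t ∈ U, ∀ r ∈ Q, sel0 (Q.erase r) t = sel0 (Q.erase r) t0 := by
    intro t ht r hr
    have := congrFun (congrArg (fun x => x.2.1) (hc t ht t0 ht0)) r
    simpa [c1, hr] using this
  have herase : ∀ r ∈ Q, Q.erase r ⊆ PP ∧ (Q.erase r).card = h := fun r hr =>
    ⟨(Finset.erase_subset _ _).trans hQ, by rw [Finset.card_erase_of_mem hr, hQc]; simp⟩
  have hphi : ∀ t ∈ U, ∀ r ∈ Q, Phi0 n D0 H (sel0 (Q.erase r) t0) t := by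
    intro t ht r hr
    rw [← hsel t ht r hr]
    exact hsel0 _ (herase r hr).1 (herase r hr).2 t (hU ht)
  by_cases hdeg : ∃ r ∈ Q, (sel0 (Q.erase r) t0).degreeOf 0 = 0
  · obtain ⟨r, hr, hd⟩ := hdeg
    obtain ⟨R, hR0, hRd, hR⟩ := exists_drop _ (hphi t0 ht0 r hr).1 hd
    refine ⟨R, hR0, hRd.trans ((hphi t0 ht0 r hr).2.1.trans hD), fun t ht => ?_⟩
    have h2 := (hphi t ht r hr).2.2.2.1
    rw [hR] at h2
    rw [← h2]
    congr 2
    funext i
    exact (v3_succ n t i).symm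
  · push Not at hdeg
    have hnd : ∀ t ∈ U, nd0 sel0 Q t := fun t ht r hr => by
      rw [hsel t ht r hr]; exact hdeg r hr
    have hnmod : ∀ t ∈ U, ∀ t' ∈ U, ∀ r ∈ Q, (r : ℤ) ∣ n t - n t' := by
      intro t ht t' ht' r hr
      have := congrFun (congrArg (fun x => x.2.2) (hc t ht t' ht')) r
      simp only [c1, hr, hnd t ht, hnd t' ht', and_self, if_true] at this
      exact Int.ModEq.dvd (show n t' ≡ n t [ZMOD (r : ℤ)] from this.symm)
    have hder : ∀ t ∈ U, ∀ r ∈ Q,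
        ¬ (r : ℤ) ∣ eval (v3 n t) (pderiv 0 (sel0 (Q.erase r) t0)) := by
      intro t ht r hr
      rcases hgood t ht r hr with h2 | h2
      · exact absurd h2 (hnd t ht r hr)
      · rwa [hsel t ht r hr] at h2
    have hQne : Q.Nonempty := by
      rw [← Finset.card_pos]; omega
    obtain ⟨r1, hr1⟩ := hQne
    refine h1 U hU Q hQ hQc ⟨sel0 (Q.erase r1) t0, (hphi t0 ht0 r1 hr1).1,
      (hphi t0 ht0 r1 hr1).2.1, fun t ht => (hphi t ht r1 hr1).2.2.2.1⟩ fun r hr => ?_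
    have hrp : r.Prime := hprime r (hQ hr)
    have hs : ∀ i, ParExp U (fun t i => t i - t0 i) ((r : ℤ) ^ a) (fun t => t i) :=
      fun i n' m => ((HasExp.param i).add (HasExp.const (t0 i))).congr fun t _ => by ring
    refine ⟨fun t i => t i - t0 i, fun t ht i => hcong t ht t0 ht0 r hr i, hs, fun n' m => ?_⟩
    have hra : (r : ℤ) ∣ (r : ℤ) ^ a := dvd_pow_self _ (by omega)
    refine implicit_mv (sel0 (Q.erase r) t0) 0 (v3 n) (v3 n t0) (fun i hi m => ?_)
      (fun t ht i => ?_) ?_ (fun t ht => (hphi t ht r hr).2.2.2.1) m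
    · obtain ⟨i', rfl⟩ := Fin.exists_succ_eq.mpr hi
      exact (hs i' n' m).congr fun t _ => v3_succ n t i'
    · refine Fin.cases ?_ (fun i => ?_) i
      · refine lift_unique hrp (sel0 (Q.erase r) t0) 0 (v3 n t) (v3 n t0) (fun i hi => ?_) ?_ ?_ ?_
        · obtain ⟨i', rfl⟩ := Fin.exists_succ_eq.mpr hi
          rw [v3_succ, v3_succ]
          exact hcong t ht t0 ht0 r hr i'
        · exact hnmod t ht t0 ht0 r hr
        · exact hder t0 ht0 r hr
        · rw [(hphi t ht r hr).2.2.2.1, (hphi t0 ht0 r hr).2.2.2.1, sub_zero]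
          exact dvd_zero _
      · rw [v3_succ, v3_succ]
        exact hcong t ht t0 ht0 r hr i
    · refine IsCoprime.pow_right ?_
      rw [isCoprime_comm, Prime.coprime_iff_not_dvd (Nat.prime_iff_prime_int.mp hrp)]
      exact hder t0 ht0 r hr

/-- on a class where a smooth relation is good at `r`, `t` has one parameter expansions -/
theorem onePar_of_smooth {U : Finset Pnt} {r e : ℕ} (hr : r.Prime)
    (R : MvPolynomial (Fin 2) ℤ) (j : Fin 2) (t0 : Pnt)
    (hcong : ∀ t ∈ U, ∀ i, ((r : ℤ) ^ e) ∣ t i - t0 i) (hR : ∀ t ∈ U, eval t R = 0)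
    (hder : ¬ (r : ℤ) ∣ eval t0 (pderiv j R)) :
    (∀ t ∈ U, ∀ i : Fin 1, ((r : ℤ) ^ e) ∣ (fun (t : Pnt) (_ : Fin 1) => t (1 - j) - t0 (1 - j)) t i) ∧
      ∀ i, ParExp U (fun (t : Pnt) (_ : Fin 1) => t (1 - j) - t0 (1 - j)) ((r : ℤ) ^ e)
        (fun t => t i) := by
  have hother : ∀ i : Fin 2, i ≠ j → i = 1 - j := by
    intro i hi; fin_cases i <;> fin_cases j <;> simp_all
  have hs : ParExp U (fun (t : Pnt) (_ : Fin 1) => t (1 - j) - t0 (1 - j)) ((r : ℤ) ^ e)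
      (fun t => t (1 - j)) := fun n' m =>
    ((HasExp.param (0 : Fin 1)).add (HasExp.const (t0 (1 - j)))).congr fun t _ => by ring
  refine ⟨fun t ht i => hcong t ht _, fun i n' m => ?_⟩
  by_cases hi : i = j
  · subst hi
    refine implicit_mv R i (fun t => t) t0 (fun i' hi' m => ?_) (fun t ht i' => hcong t ht i')
      ?_ hR m
    · rw [hother i' hi']
      exact hs n' m
    · refine IsCoprime.pow_right ?_
      rw [isCoprime_comm, Prime.coprime_iff_not_dvd (Nat.prime_iff_prime_int.mp hr)]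
      exact hder
  · rw [hother i hi]
    exact hs n' m

/-- **Level 2**: relations between `n` and `t_j` on good classes with constant level 2 code. -/
theorem level2 {T : Finset Pnt} {n : Pnt → ℤ} {PP : Finset ℕ} {h a b D1 D2 H : ℕ}
    (hprime : ∀ r ∈ PP, r.Prime)
    (h2 : ∀ U ⊆ T, ∀ Q ⊆ PP, Q.card = h + 2 →
      (∃ R : MvPolynomial (Fin 2) ℤ, R ≠ 0 ∧ R.totalDegree ≤ D1 ∧ ∀ t ∈ U, eval t R = 0) →
      (∀ r ∈ Q, OnePar U ((r : ℤ) ^ b)) →
      ∀ j : Fin 2, ∃ E : MvPolynomial (Fin 2) ℤ, E ≠ 0 ∧ E.totalDegree ≤ D2 ∧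
        ∀ t ∈ U, eval (v2 n j t) E = 0)
    (sel0 : Finset ℕ → Pnt → MvPolynomial (Fin 3) ℤ)
    (sel1 : Finset ℕ → Pnt → MvPolynomial (Fin 2) ℤ × Fin 2)
    (hsel1 : ∀ Q ⊆ PP, Q.card = h + 1 → ∀ t ∈ T, good1 n sel0 Q t → Phi1 D1 H (sel1 Q t) t)
    (Q : Finset ℕ) (hQ : Q ⊆ PP) (hQc : Q.card = h + 2) (U : Finset Pnt) (hU : U ⊆ T)
    (hgood : ∀ t ∈ U, good2 n sel0 sel1 Q t)
    (hc : ∀ t ∈ U, ∀ t' ∈ U, c2 n sel0 sel1 a b Q t = c2 n sel0 sel1 a b Q t') (j : Fin 2) :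
    ∃ E : MvPolynomial (Fin 2) ℤ, E ≠ 0 ∧ E.totalDegree ≤ D2 ∧
      ∀ t ∈ U, eval (v2 n j t) E = 0 := by
  classical
  rcases U.eq_empty_or_nonempty with h0 | ⟨t0, ht0⟩
  · exact ⟨1, one_ne_zero, by simp, by simp [h0]⟩
  have hcong : ∀ t ∈ U, ∀ t' ∈ U, ∀ r ∈ Q, ∀ i, ((r : ℤ) ^ b) ∣ t i - t' i := by
    intro t ht t' ht'
    have := congrArg Prod.fst (hc t ht t' ht')
    exact (c0_eq_iff b Q t t').mp this
  have hsel : ∀ t ∈ U, ∀ r ∈ Q, sel1 (Q.erase r) t = sel1 (Q.erase r) t0 := by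
    intro t ht r hr
    have := congrFun (congrArg (fun x => x.2.2) (hc t ht t0 ht0)) r
    simpa [c2, hr] using this
  have herase : ∀ r ∈ Q, Q.erase r ⊆ PP ∧ (Q.erase r).card = h + 1 := fun r hr =>
    ⟨(Finset.erase_subset _ _).trans hQ, by rw [Finset.card_erase_of_mem hr, hQc]; simp⟩
  have hphi : ∀ t ∈ U, ∀ r ∈ Q, Phi1 D1 H (sel1 (Q.erase r) t0) t := by
    intro t ht r hr
    rw [← hsel t ht r hr]
    exact hsel1 _ (herase r hr).1 (herase r hr).2 t (hU ht) (hgood t ht r hr).1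
  have hQne : Q.Nonempty := by
    rw [← Finset.card_pos]; omega
  obtain ⟨r1, hr1⟩ := hQne
  refine h2 U hU Q hQ hQc ⟨(sel1 (Q.erase r1) t0).1, (hphi t0 ht0 r1 hr1).1,
      (hphi t0 ht0 r1 hr1).2.1, fun t ht => (hphi t ht r1 hr1).2.2.2.1⟩ (fun r hr => ?_) j
  obtain ⟨h3, h4⟩ := onePar_of_smooth (hprime r (hQ hr)) (sel1 (Q.erase r) t0).1
    (sel1 (Q.erase r) t0).2 t0 (fun t ht i => hcong t ht t0 ht0 r hr i)
    (fun t ht => (hphi t ht r hr).2.2.2.1) (hgood t0 ht0 r hr).2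
  exact ⟨_, h3, h4⟩

end Crest.Agent.R22.Levels859
end

-- ▼ part R22/Levels859B
section

/-! Row 22: level bookkeeping, selections and bad primes (helper859). -/

set_option autoImplicit false

open Finset

namespace Crest.Agent.R22.Levels859

open Crest.Agent.R022.Expand MvPolynomial
open Spec859 Select859 Chain859 Tuple859 PolyKit

theorem len_pderiv_le {σ : Type*} (G : MvPolynomial σ ℤ) (j : σ) :
    len (pderiv j G) ≤ G.totalDegree * len G := by
  classical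
  have hinj : Set.InjOn (fun m : σ →₀ ℕ => m + Finsupp.single j 1) (pderiv j G).support :=
    fun m _ m' _ h => add_right_cancel h
  calc len (pderiv j G) = ∑ m ∈ (pderiv j G).support, ((pderiv j G).coeff m).natAbs := rfl
    _ ≤ ∑ m ∈ (pderiv j G).support,
          G.totalDegree * (G.coeff (m + Finsupp.single j 1)).natAbs := by
        refine Finset.sum_le_sum fun m hm => ?_
        rw [coeff_pderiv, Int.natAbs_mul, mul_comm]
        refine Nat.mul_le_mul_right _ ?_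
        have h1 := le_totalDegree (support_pderiv hm)
        have h2 : ((m + Finsupp.single j 1).sum fun _ e => e) = (m.sum fun _ e => e) + 1 := by
          rw [Finsupp.sum_add_index' (by simp) (by simp)]
          simp
        have h3 : m j ≤ m.sum fun _ e => e := by
          by_cases hj : j ∈ m.support
          · exact Finset.single_le_sum (f := fun i => m i) (fun _ _ => Nat.zero_le _) hj
          · rw [Finsupp.notMem_support_iff.mp hj]; exact Nat.zero_le _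
        have h4 : ((m j : ℤ) + 1).natAbs = m j + 1 := by
          exact_mod_cast Int.natAbs_natCast (m j + 1)
        rw [h4]
        omega
    _ = ∑ e ∈ (pderiv j G).support.image (fun m : σ →₀ ℕ => m + Finsupp.single j 1),
          G.totalDegree * (G.coeff e).natAbs := by
        rw [Finset.sum_image hinj]
    _ ≤ ∑ e ∈ G.support, G.totalDegree * (G.coeff e).natAbs := by
        refine Finset.sum_le_sum_of_subset fun e he => ?_
        obtain ⟨m, hm, rfl⟩ := Finset.mem_image.mp he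
        exact support_pderiv hm
    _ = G.totalDegree * len G := by rw [← Finset.mul_sum]; rfl

/-- size of a derivative at a point -/
theorem natAbs_pderiv_le {σ : Type*} [Fintype σ] [DecidableEq σ] (G : MvPolynomial σ ℤ) (j : σ)
    (x : σ → ℤ) (D H : ℕ) (hH : 1 ≤ H) (hx : ∀ i, (x i).natAbs ≤ H) (hD : G.totalDegree ≤ D)
    (hlen : len G ≤ hgt σ D H) : (eval x (pderiv j G)).natAbs ≤ D * hgt σ D H * H ^ D := by
  have h1 := natAbs_eval_le (pderiv j G) x H D hH hx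
    ((totalDegree_pderiv_le.trans (Nat.sub_le _ _)).trans hD)
  exact h1.trans (Nat.mul_le_mul_right _ ((len_pderiv_le G j).trans (Nat.mul_le_mul hD hlen)))

/-- one-variable polynomials have few roots -/
theorem card_roots_one (R : MvPolynomial (Fin 1) ℤ) (hR : R ≠ 0) (U : Finset ℤ)
    (h : ∀ u ∈ U, eval (fun _ => u) R = 0) : U.card ≤ R.totalDegree := by
  classical
  set g : Polynomial ℤ := spec 0 0 R with hg
  have hev : ∀ u, g.eval u = eval (fun _ => u) R := by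
    intro u
    rw [hg, spec_eval]
    congr 2
    funext i
    fin_cases i
    simp
  have hg0 : g ≠ 0 := by
    intro h0
    apply hR
    apply MvPolynomial.funext
    intro x
    have h1 := hev (x 0)
    rw [h0, Polynomial.eval_zero] at h1
    rw [map_zero, h1]
    congr 2
    funext i
    fin_cases i
    rfl
  calc U.card ≤ g.roots.toFinset.card := by
        refine Finset.card_le_card fun u hu => ?_
        rw [Multiset.mem_toFinset, Polynomial.mem_roots hg0]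
        show g.eval u = 0
        rw [hev]; exact h u hu
    _ ≤ g.roots.card := Multiset.toFinset_card_le _
    _ ≤ g.natDegree := Polynomial.card_roots' g
    _ ≤ R.totalDegree := spec_natDegree _ _ _

section sel

variable {T : Finset Pnt} {n : Pnt → ℤ} {PP : Finset ℕ} {h a b D0 D1 D2 H : ℕ}

theorem natAbs_v3 {t : Pnt} (ht : ∀ i, (t i).natAbs ≤ H) (hn : (n t).natAbs ≤ H) (i : Fin 3) :
    (v3 n t i).natAbs ≤ H := by
  refine Fin.cases ?_ (fun i => ?_) i
  · exact hn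
  · rw [v3_succ]; exact ht i

theorem natAbs_v2 {t : Pnt} (ht : ∀ i, (t i).natAbs ≤ H) (hn : (n t).natAbs ≤ H) (j i : Fin 2) :
    (v2 n j t i).natAbs ≤ H := by
  fin_cases i
  · exact hn
  · exact ht j

theorem exists_sel0 (hH : 1 ≤ H) (ht : ∀ t ∈ T, ∀ i, (t i).natAbs ≤ H)
    (hn : ∀ t ∈ T, (n t).natAbs ≤ H)
    (h0 : ∀ U ⊆ T, ∀ Q ⊆ PP, Q.card = h →
      (∀ r ∈ Q, ∀ t ∈ U, ∀ t' ∈ U, ∀ i, ((r : ℤ) ^ a) ∣ t i - t' i) →
      ∃ G : MvPolynomial (Fin 3) ℤ, G ≠ 0 ∧ G.totalDegree ≤ D0 ∧ ∀ t ∈ U, eval (v3 n t) G = 0) :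
    ∃ sel0 : Finset ℕ → Pnt → MvPolynomial (Fin 3) ℤ, ∀ Q ⊆ PP, Q.card = h →
      (∀ t ∈ T, Phi0 n D0 H (sel0 Q t) t) ∧
      ∀ U ⊆ T, (∀ r ∈ Q, ∀ t ∈ U, ∀ t' ∈ U, ∀ i, ((r : ℤ) ^ a) ∣ t i - t' i) →
        (U.image (sel0 Q)).card ≤ D0 + 1 := by
  classical
  have key : ∀ Q : Finset ℕ, ∃ sel : Pnt → MvPolynomial (Fin 3) ℤ, Q ⊆ PP → Q.card = h →
      (∀ t ∈ T, Phi0 n D0 H (sel t) t) ∧
      ∀ U ⊆ T, (∀ r ∈ Q, ∀ t ∈ U, ∀ t' ∈ U, ∀ i, ((r : ℤ) ^ a) ∣ t i - t' i) →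
        (U.image sel).card ≤ D0 + 1 := by
    intro Q
    by_cases hQ : Q ⊆ PP ∧ Q.card = h
    · obtain ⟨sel, h1, h2⟩ := exists_sel (X := MvPolynomial (Fin 3) ℤ) T (c0 a Q)
        (Phi0 n D0 H) D0 (fun U hU hc => by
          obtain ⟨G, hG0, hGD, hG⟩ := h0 U hU Q hQ.1 hQ.2 (fun r hr t ht t' ht' i =>
            (c0_eq_iff a Q t t').mp (hc t ht t' ht') r hr i)
          obtain ⟨Gs, h3, h4⟩ := chain_degreeOf (0 : Fin 3) D0 H hH (v3 n) D0 (↑U : Set Pnt)
            (fun t htU i => natAbs_v3 (ht t (hU htU)) (hn t (hU htU)) i)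
            ⟨G, hG0, hGD, (degreeOf_le_totalDegree G 0).trans hGD, fun t htU => hG t htU⟩
          refine ⟨Gs, fun t htU => ?_⟩
          obtain ⟨i, hi, h5, h6⟩ := h4 t htU
          exact ⟨i, hi, (h3 i).1, (h3 i).2.1, (h3 i).2.2.2, h5, h6⟩)
      refine ⟨sel, fun _ _ => ⟨h1, fun U hU hc => h2 U hU fun t ht t' ht' => ?_⟩⟩
      exact (c0_eq_iff a Q t t').mpr fun r hr i => hc r hr t ht t' ht' i
    · exact ⟨fun _ => 0, fun h1 h2 => absurd ⟨h1, h2⟩ hQ⟩
  choose sel0 hsel0 using key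
  exact ⟨sel0, fun Q hQ hc => hsel0 Q hQ hc⟩

theorem exists_sel1 (hH : 1 ≤ H) (ht : ∀ t ∈ T, ∀ i, (t i).natAbs ≤ H)
    (ha : 1 ≤ a) (hD : D0 ≤ D1) (hprime : ∀ r ∈ PP, r.Prime)
    (h1 : ∀ U ⊆ T, ∀ Q ⊆ PP, Q.card = h + 1 →
      (∃ G : MvPolynomial (Fin 3) ℤ, G ≠ 0 ∧ G.totalDegree ≤ D0 ∧ ∀ t ∈ U, eval (v3 n t) G = 0) →
      (∀ r ∈ Q, TwoPar U n ((r : ℤ) ^ a)) →
      ∃ R : MvPolynomial (Fin 2) ℤ, R ≠ 0 ∧ R.totalDegree ≤ D1 ∧ ∀ t ∈ U, eval t R = 0)
    (sel0 : Finset ℕ → Pnt → MvPolynomial (Fin 3) ℤ)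
    (hsel0 : ∀ Q ⊆ PP, Q.card = h → ∀ t ∈ T, Phi0 n D0 H (sel0 Q t) t) :
    ∃ sel1 : Finset ℕ → Pnt → MvPolynomial (Fin 2) ℤ × Fin 2, ∀ Q ⊆ PP, Q.card = h + 1 →
      (∀ t ∈ T, good1 n sel0 Q t → Phi1 D1 H (sel1 Q t) t) ∧
      ∀ U ⊆ T, (∀ t ∈ U, good1 n sel0 Q t) →
        (∀ t ∈ U, ∀ t' ∈ U, c1 n sel0 a Q t = c1 n sel0 a Q t') →
        (U.image (sel1 Q)).card ≤ 2 * D1 + 1 + 1 := by
  classical
  have key : ∀ Q : Finset ℕ, ∃ sel : Pnt → MvPolynomial (Fin 2) ℤ × Fin 2,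
      Q ⊆ PP → Q.card = h + 1 →
      (∀ t ∈ T, good1 n sel0 Q t → Phi1 D1 H (sel t) t) ∧
      ∀ U ⊆ T, (∀ t ∈ U, good1 n sel0 Q t) →
        (∀ t ∈ U, ∀ t' ∈ U, c1 n sel0 a Q t = c1 n sel0 a Q t') →
        (U.image sel).card ≤ 2 * D1 + 1 + 1 := by
    intro Q
    by_cases hQ : Q ⊆ PP ∧ Q.card = h + 1
    · obtain ⟨sel, h3, h4⟩ := exists_sel_good (X := MvPolynomial (Fin 2) ℤ × Fin 2) T
        (c1 n sel0 a Q) (good1 n sel0 Q) (Phi1 D1 H) (2 * D1 + 1) (fun U hU hg hc => by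
          obtain ⟨R, hR0, hRD, hR⟩ := level1 ha hD hprime h1 sel0 hsel0 Q hQ.1 hQ.2 U hU hg hc
          obtain ⟨Rs, h5, h6⟩ := chain_grad H hH (fun t : Pnt => t) D1 (↑U : Set Pnt)
            (fun t htU i => ht t (hU htU) i) ⟨R, hR0, hRD, fun t htU => hR t htU⟩
          refine ⟨fun k => (Rs (k / 2), if k % 2 = 0 then 0 else 1), fun t htU => ?_⟩
          obtain ⟨i, hi, j, h7, h8⟩ := h6 t htU
          refine ⟨2 * i + j.val, by have := j.isLt; omega, ?_⟩
          have h9 : (2 * i + j.val) / 2 = i := by have := j.isLt; omega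
          have h10 : (if (2 * i + j.val) % 2 = 0 then (0 : Fin 2) else 1) = j := by
            have h11 : (2 * i + j.val) % 2 = j.val := by have := j.isLt; omega
            rw [h11]
            fin_cases j <;> rfl
          simp only [h9, h10]
          exact ⟨(h5 i).1, (h5 i).2.1, (h5 i).2.2, h7, h8⟩)
      exact ⟨sel, fun _ _ => ⟨h3, h4⟩⟩
    · exact ⟨fun _ => (0, 0), fun h1 h2 => absurd ⟨h1, h2⟩ hQ⟩
  choose sel1 hsel1 using key
  exact ⟨sel1, fun Q hQ hc => hsel1 Q hQ hc⟩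

theorem exists_sel2 (hH : 1 ≤ H) (ht : ∀ t ∈ T, ∀ i, (t i).natAbs ≤ H)
    (hn : ∀ t ∈ T, (n t).natAbs ≤ H) (hprime : ∀ r ∈ PP, r.Prime)
    (h2 : ∀ U ⊆ T, ∀ Q ⊆ PP, Q.card = h + 2 →
      (∃ R : MvPolynomial (Fin 2) ℤ, R ≠ 0 ∧ R.totalDegree ≤ D1 ∧ ∀ t ∈ U, eval t R = 0) →
      (∀ r ∈ Q, OnePar U ((r : ℤ) ^ b)) →
      ∀ j : Fin 2, ∃ E : MvPolynomial (Fin 2) ℤ, E ≠ 0 ∧ E.totalDegree ≤ D2 ∧
        ∀ t ∈ U, eval (v2 n j t) E = 0)
    (sel0 : Finset ℕ → Pnt → MvPolynomial (Fin 3) ℤ)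
    (sel1 : Finset ℕ → Pnt → MvPolynomial (Fin 2) ℤ × Fin 2)
    (hsel1 : ∀ Q ⊆ PP, Q.card = h + 1 → ∀ t ∈ T, good1 n sel0 Q t → Phi1 D1 H (sel1 Q t) t) :
    ∃ sel2 : Finset ℕ → Fin 2 → Pnt → MvPolynomial (Fin 2) ℤ, ∀ Q ⊆ PP, Q.card = h + 2 → ∀ j,
      (∀ t ∈ T, good2 n sel0 sel1 Q t → Phi2 n D2 H j (sel2 Q j t) t) ∧
      ∀ U ⊆ T, (∀ t ∈ U, good2 n sel0 sel1 Q t) →
        (∀ t ∈ U, ∀ t' ∈ U, c2 n sel0 sel1 a b Q t = c2 n sel0 sel1 a b Q t') →
        (U.image (sel2 Q j)).card ≤ D2 + 1 := by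
  classical
  have key : ∀ (Q : Finset ℕ) (j : Fin 2), ∃ sel : Pnt → MvPolynomial (Fin 2) ℤ,
      Q ⊆ PP → Q.card = h + 2 →
      (∀ t ∈ T, good2 n sel0 sel1 Q t → Phi2 n D2 H j (sel t) t) ∧
      ∀ U ⊆ T, (∀ t ∈ U, good2 n sel0 sel1 Q t) →
        (∀ t ∈ U, ∀ t' ∈ U, c2 n sel0 sel1 a b Q t = c2 n sel0 sel1 a b Q t') →
        (U.image sel).card ≤ D2 + 1 := by
    intro Q j
    by_cases hQ : Q ⊆ PP ∧ Q.card = h + 2
    · obtain ⟨sel, h3, h4⟩ := exists_sel_good (X := MvPolynomial (Fin 2) ℤ) T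
        (c2 n sel0 sel1 a b Q) (good2 n sel0 sel1 Q) (Phi2 n D2 H j) D2 (fun U hU hg hc => by
          obtain ⟨E, hE0, hED, hE⟩ := level2 hprime h2 sel0 sel1 hsel1 Q hQ.1 hQ.2 U hU hg hc j
          obtain ⟨Es, h5, h6⟩ := chain_degreeOf (0 : Fin 2) D2 H hH (v2 n j) D2 (↑U : Set Pnt)
            (fun t htU i => natAbs_v2 (ht t (hU htU)) (hn t (hU htU)) j i)
            ⟨E, hE0, hED, (degreeOf_le_totalDegree E 0).trans hED, fun t htU => hE t htU⟩
          refine ⟨Es, fun t htU => ?_⟩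
          obtain ⟨i, hi, h7, h8⟩ := h6 t htU
          exact ⟨i, hi, (h5 i).1, (h5 i).2.1, (h5 i).2.2.2, h7, h8⟩)
      exact ⟨sel, fun _ _ => ⟨h3, h4⟩⟩
    · exact ⟨fun _ => 0, fun h1 h2 => absurd ⟨h1, h2⟩ hQ⟩
  choose sel2 hsel2 using key
  exact ⟨sel2, fun Q hQ hc j => hsel2 Q j hQ hc⟩

end sel

open Classical in
/-- the free set of a point -/
theorem exists_free {T : Finset Pnt} {n : Pnt → ℤ} {PP : Finset ℕ} {h D0 D1 D2 H B X : ℕ}
    (hH : 1 ≤ H) (ht : ∀ t ∈ T, ∀ i, (t i).natAbs ≤ H)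
    (hn : ∀ t ∈ T, (n t).natAbs ≤ H) (hprime : ∀ r ∈ PP, r.Prime)
    (hX1 : 1 ≤ X) (hX : ∀ r ∈ PP, X ≤ r)
    (hcard : (h + 3) * 2 ^ (h + 3) * (2 * B) + (h + 3) * (h + 3) < PP.card)
    (hB0 : D0 * hgt (Fin 3) D0 H * H ^ D0 < X ^ B)
    (hB1 : D1 * hgt (Fin 2) D1 H * H ^ D1 < X ^ B)
    (hB2 : D2 * hgt (Fin 2) D2 H * H ^ D2 < X ^ B)
    (sel0 : Finset ℕ → Pnt → MvPolynomial (Fin 3) ℤ)
    (sel1 : Finset ℕ → Pnt → MvPolynomial (Fin 2) ℤ × Fin 2)
    (sel2 : Finset ℕ → Fin 2 → Pnt → MvPolynomial (Fin 2) ℤ)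
    (hsel0 : ∀ Q ⊆ PP, Q.card = h → ∀ t ∈ T, Phi0 n D0 H (sel0 Q t) t)
    (hsel1 : ∀ Q ⊆ PP, Q.card = h + 1 → ∀ t ∈ T, good1 n sel0 Q t → Phi1 D1 H (sel1 Q t) t)
    (hsel2 : ∀ Q ⊆ PP, Q.card = h + 2 → ∀ j, ∀ t ∈ T, good2 n sel0 sel1 Q t →
      Phi2 n D2 H j (sel2 Q j t) t) (t : Pnt) (htT : t ∈ T) :
    ∃ W ⊆ PP, W.card = h + 3 ∧
      (∀ Q ⊆ W, Q.card = h + 1 → good1 n sel0 Q t) ∧
      (∀ Q ⊆ W, Q.card = h + 1 → ∀ r ∈ W, r ∉ Q →
        ¬ (r : ℤ) ∣ eval t (pderiv (sel1 Q t).2 (sel1 Q t).1)) ∧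
      (∀ Q ⊆ W, Q.card = h + 2 → good2 n sel0 sel1 Q t) ∧
      (∀ Q ⊆ W, Q.card = h + 2 → ∀ r ∈ W, r ∉ Q → ∀ j, (sel2 Q j t).degreeOf 0 ≠ 0 →
        ¬ (r : ℤ) ∣ eval (v2 n j t) (pderiv 0 (sel2 Q j t))) := by
  -- divisors in the pool
  have hdiv : ∀ v : ℤ, v ≠ 0 → v.natAbs < X ^ B → (PP.filter fun r : ℕ => (r : ℤ) ∣ v).card ≤ B := by
    intro v hv hlt
    refine (card_lt_of_natAbs_lt v hv X B hX1 hlt _ fun r hr => ?_).le
    have hr' := Finset.mem_filter.mp hr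
    exact ⟨hprime r hr'.1, hr'.2, hX r hr'.1⟩
  set bad : Finset ℕ → Finset ℕ := fun Q => PP.filter fun r : ℕ =>
    (Q.card = h ∧ eval (v3 n t) (pderiv 0 (sel0 Q t)) ≠ 0 ∧
      (r : ℤ) ∣ eval (v3 n t) (pderiv 0 (sel0 Q t))) ∨
    (Q.card = h + 1 ∧ good1 n sel0 Q t ∧
      (r : ℤ) ∣ eval t (pderiv (sel1 Q t).2 (sel1 Q t).1)) ∨
    (Q.card = h + 2 ∧ good2 n sel0 sel1 Q t ∧ ∃ j,
      eval (v2 n j t) (pderiv 0 (sel2 Q j t)) ≠ 0 ∧
      (r : ℤ) ∣ eval (v2 n j t) (pderiv 0 (sel2 Q j t))) with hbad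
  have hbadc : ∀ Q ⊆ PP, (bad Q).card ≤ 2 * B := by
    intro Q hQ
    by_cases hc0 : Q.card = h
    · by_cases hv : eval (v3 n t) (pderiv 0 (sel0 Q t)) = 0
      · have : bad Q = ∅ := by
          rw [hbad]
          refine Finset.filter_eq_empty_iff.mpr fun r _ hcon => ?_
          rcases hcon with ⟨_, h1, _⟩ | ⟨h1, _⟩ | ⟨h1, _⟩
          · exact h1 hv
          · omega
          · omega
        rw [this]; simp
      · obtain ⟨_, h2, h3, _, _⟩ := hsel0 Q hQ hc0 t htT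
        have h4 := hdiv _ hv (lt_of_le_of_lt (natAbs_pderiv_le _ 0 (v3 n t) D0 H hH
          (fun i => natAbs_v3 (ht t htT) (hn t htT) i) h2 h3) hB0)
        refine (Finset.card_le_card ?_).trans (h4.trans (by omega))
        intro r hr
        have hr' := Finset.mem_filter.mp hr
        refine Finset.mem_filter.mpr ⟨hr'.1, ?_⟩
        rcases hr'.2 with ⟨_, _, h1⟩ | ⟨h1, _⟩ | ⟨h1, _⟩
        · exact h1
        · omega
        · omega
    · by_cases hc1 : Q.card = h + 1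
      · by_cases hg : good1 n sel0 Q t
        · obtain ⟨_, h2, h3, _, hv⟩ := hsel1 Q hQ hc1 t htT hg
          have h4 := hdiv _ hv (lt_of_le_of_lt (natAbs_pderiv_le _ _ t D1 H hH
            (fun i => ht t htT i) h2 h3) hB1)
          refine (Finset.card_le_card ?_).trans (h4.trans (by omega))
          intro r hr
          have hr' := Finset.mem_filter.mp hr
          refine Finset.mem_filter.mpr ⟨hr'.1, ?_⟩
          rcases hr'.2 with ⟨h1, _⟩ | ⟨_, _, h1⟩ | ⟨h1, _⟩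
          · omega
          · exact h1
          · omega
        · have : bad Q = ∅ := by
            rw [hbad]
            refine Finset.filter_eq_empty_iff.mpr fun r _ hcon => ?_
            rcases hcon with ⟨h1, _⟩ | ⟨_, h1, _⟩ | ⟨h1, _⟩
            · omega
            · exact hg h1
            · omega
          rw [this]; simp
      · by_cases hc2 : Q.card = h + 2
        · by_cases hg : good2 n sel0 sel1 Q t
          · have h5 : bad Q ⊆ (univ : Finset (Fin 2)).biUnion fun j => PP.filter fun r : ℕ =>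
                eval (v2 n j t) (pderiv 0 (sel2 Q j t)) ≠ 0 ∧
                (r : ℤ) ∣ eval (v2 n j t) (pderiv 0 (sel2 Q j t)) := by
              intro r hr
              have hr' := Finset.mem_filter.mp hr
              rcases hr'.2 with ⟨h1, _⟩ | ⟨h1, _⟩ | ⟨_, _, j, h1⟩
              · omega
              · omega
              · exact Finset.mem_biUnion.mpr ⟨j, Finset.mem_univ _,
                  Finset.mem_filter.mpr ⟨hr'.1, h1⟩⟩
            refine (Finset.card_le_card h5).trans (Finset.card_biUnion_le.trans ?_)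
            calc _ ≤ ∑ _j : Fin 2, B := by
                  refine Finset.sum_le_sum fun j _ => ?_
                  by_cases hv : eval (v2 n j t) (pderiv 0 (sel2 Q j t)) = 0
                  · simp [hv]
                  · obtain ⟨_, h2, h3, _, _⟩ := hsel2 Q hQ hc2 j t htT hg
                    have h4 := hdiv _ hv (lt_of_le_of_lt (natAbs_pderiv_le _ 0 (v2 n j t) D2 H hH
                      (fun i => natAbs_v2 (ht t htT) (hn t htT) j i) h2 h3) hB2)
                    refine (Finset.card_le_card ?_).trans h4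
                    intro r hr
                    have hr' := Finset.mem_filter.mp hr
                    exact Finset.mem_filter.mpr ⟨hr'.1, hr'.2.2⟩
              _ = 2 * B := by simp
          · have : bad Q = ∅ := by
              rw [hbad]
              refine Finset.filter_eq_empty_iff.mpr fun r _ hcon => ?_
              rcases hcon with ⟨h1, _⟩ | ⟨h1, _⟩ | ⟨_, h1, _⟩
              · omega
              · omega
              · exact hg h1
            rw [this]; simp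
        · have : bad Q = ∅ := by
            rw [hbad]
            refine Finset.filter_eq_empty_iff.mpr fun r _ hcon => ?_
            rcases hcon with ⟨h1, _⟩ | ⟨h1, _⟩ | ⟨h1, _⟩ <;> omega
          rw [this]; simp
  obtain ⟨W, hW, hWc, hfree⟩ := exists_free_set PP (h + 3) (2 * B) bad hbadc hcard
  have hg1 : ∀ Q ⊆ W, Q.card = h + 1 → good1 n sel0 Q t := by
    intro Q hQ hc r hr
    have hc' : (Q.erase r).card = h := by rw [Finset.card_erase_of_mem hr, hc]; simp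
    have hsub : Q.erase r ⊆ W := (Finset.erase_subset _ _).trans hQ
    by_contra hcon
    push Not at hcon
    obtain ⟨h1, h2⟩ := hcon
    have h3 := (hsel0 _ (hsub.trans hW) hc' t htT).2.2.2.2
    refine hfree (Q.erase r) hsub r (hQ hr) (Finset.notMem_erase r Q) ?_
    exact Finset.mem_filter.mpr ⟨hW (hQ hr), Or.inl ⟨hc', h3.resolve_left h1, h2⟩⟩
  have hg1' : ∀ Q ⊆ W, Q.card = h + 1 → ∀ r ∈ W, r ∉ Q →
      ¬ (r : ℤ) ∣ eval t (pderiv (sel1 Q t).2 (sel1 Q t).1) := by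
    intro Q hQ hc r hr hrQ h1
    exact hfree Q hQ r hr hrQ (Finset.mem_filter.mpr ⟨hW hr, Or.inr (Or.inl ⟨hc, hg1 Q hQ hc, h1⟩)⟩)
  have hg2 : ∀ Q ⊆ W, Q.card = h + 2 → good2 n sel0 sel1 Q t := by
    intro Q hQ hc r hr
    have hc' : (Q.erase r).card = h + 1 := by rw [Finset.card_erase_of_mem hr, hc]; simp
    have hsub : Q.erase r ⊆ W := (Finset.erase_subset _ _).trans hQ
    exact ⟨hg1 _ hsub hc', hg1' _ hsub hc' r (hQ hr) (Finset.notMem_erase r Q)⟩
  refine ⟨W, hW, hWc, hg1, hg1', hg2, fun Q hQ hc r hr hrQ j hj h1 => ?_⟩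
  have h3 := (hsel2 _ (hQ.trans hW) hc j t htT (hg2 Q hQ hc)).2.2.2.2
  exact hfree Q hQ r hr hrQ (Finset.mem_filter.mpr ⟨hW hr,
    Or.inr (Or.inr ⟨hc, hg2 Q hQ hc, j, h3.resolve_left hj, h1⟩)⟩)

end Crest.Agent.R22.Levels859
end

-- ▼ part R22/Levels859
section

/-! Row 22: level bookkeeping, the main abstract theorem (helper859). -/

set_option autoImplicit false

open Finset

namespace Crest.Agent.R22.Levels859

open Crest.Agent.R022.Expand MvPolynomial
open Spec859 Select859 Chain859 Tuple859 PolyKit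

/-- the constant of the main theorem -/
def lconst (p h D0 D1 D2 C3 : ℕ) : ℕ :=
  2 ^ p * (2 ^ (h + 3) * ((D0 + 1) ^ ((h + 3).choose h) *
    ((D0 + 1) ^ ((h + 3).choose (h + 1) * (h + 3)) *
      ((2 * D1 + 1 + 1) ^ ((h + 3).choose (h + 1)) *
        ((D2 + 1) ^ ((h + 3).choose (h + 2) * 2) * (D2 ^ 2 + (D2 + 1) ^ (h + 3) * C3))))))

theorem fin2_eq : ∀ i j : Fin 2, i ≠ j → i = 1 - j := by decide

theorem dvd_sub_of_emod_eq {x y q : ℤ} (h : x % q = y % q) : q ∣ x - y :=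
  Int.ModEq.dvd (show y ≡ x [ZMOD q] from h.symm)


theorem c1_eq {n : Pnt → ℤ} {sel0 : Finset ℕ → Pnt → MvPolynomial (Fin 3) ℤ} {a : ℕ}
    {Q : Finset ℕ} {t t' : Pnt} (h1 : ∀ r ∈ Q, ∀ i, ((r : ℤ) ^ a) ∣ t i - t' i)
    (h2 : ∀ r ∈ Q, sel0 (Q.erase r) t = sel0 (Q.erase r) t')
    (h3 : nd0 sel0 Q t → nd0 sel0 Q t' → ∀ r ∈ Q, n t % (r : ℤ) = n t' % (r : ℤ)) :
    c1 n sel0 a Q t = c1 n sel0 a Q t' := by
  classical
  have hnd : nd0 sel0 Q t ↔ nd0 sel0 Q t' := by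
    constructor
    · intro h r hr; rw [← h2 r hr]; exact h r hr
    · intro h r hr; rw [h2 r hr]; exact h r hr
  refine Prod.ext ((c0_eq_iff a Q t t').mpr h1) (Prod.ext ?_ ?_)
  · funext r
    simp only [c1]
    split_ifs with hr
    · exact h2 r hr
    · rfl
  · funext r
    simp only [c1]
    by_cases hr : r ∈ Q ∧ nd0 sel0 Q t
    · rw [if_pos hr, if_pos ⟨hr.1, hnd.mp hr.2⟩]
      exact h3 hr.2 (hnd.mp hr.2) r hr.1
    · rw [if_neg hr, if_neg (fun h => hr ⟨h.1, hnd.mpr h.2⟩)]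

theorem c2_eq {n : Pnt → ℤ} {sel0 : Finset ℕ → Pnt → MvPolynomial (Fin 3) ℤ}
    {sel1 : Finset ℕ → Pnt → MvPolynomial (Fin 2) ℤ × Fin 2} {a b : ℕ}
    {Q : Finset ℕ} {t t' : Pnt} (h1 : ∀ r ∈ Q, ∀ i, ((r : ℤ) ^ b) ∣ t i - t' i)
    (h2 : ∀ r ∈ Q, c1 n sel0 a (Q.erase r) t = c1 n sel0 a (Q.erase r) t')
    (h3 : ∀ r ∈ Q, sel1 (Q.erase r) t = sel1 (Q.erase r) t') :
    c2 n sel0 sel1 a b Q t = c2 n sel0 sel1 a b Q t' := by
  classical
  refine Prod.ext ((c0_eq_iff b Q t t').mpr h1) (Prod.ext ?_ ?_)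
  · funext r
    simp only [c2]
    split_ifs with hr
    · rw [h2 r hr]
    · rfl
  · funext r
    simp only [c2]
    split_ifs with hr
    · rw [h3 r hr]
    · rfl

theorem dvd_pow_le {r a b : ℕ} (hab : a ≤ b) {x : ℤ} (h : (r : ℤ) ^ b ∣ x) : (r : ℤ) ^ a ∣ x :=
  (pow_dvd_pow _ hab).trans h

open Classical in
/-- number of values of the residue code at one prime -/
theorem card_codeA {U : Finset Pnt} (r a b : ℕ) (hr : 1 ≤ r) (j : Pnt → Fin 2) :
    (U.image fun t => (j t, t (1 - j t) % (r : ℤ) ^ b, t (j t) % (r : ℤ) ^ a)).card ≤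
      2 * r ^ (a + b) := by
  have hpos : ∀ e : ℕ, (0 : ℤ) < (r : ℤ) ^ e := fun e => by positivity
  have h1 : (U.image fun t => (j t, t (1 - j t) % (r : ℤ) ^ b, t (j t) % (r : ℤ) ^ a)) ⊆
      (univ : Finset (Fin 2)) ×ˢ (Finset.Ico (0 : ℤ) ((r : ℤ) ^ b)) ×ˢ
        (Finset.Ico (0 : ℤ) ((r : ℤ) ^ a)) := by
    intro x hx
    obtain ⟨t, _, rfl⟩ := Finset.mem_image.mp hx
    simp only [Finset.mem_product, Finset.mem_univ, true_and, Finset.mem_Ico]
    exact ⟨⟨Int.emod_nonneg _ (hpos b).ne', Int.emod_lt_of_pos _ (hpos b)⟩,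
      Int.emod_nonneg _ (hpos a).ne', Int.emod_lt_of_pos _ (hpos a)⟩
  refine (Finset.card_le_card h1).trans (le_of_eq ?_)
  rw [Finset.card_product, Finset.card_product, Finset.card_univ, Fintype.card_fin, Int.card_Ico,
    Int.card_Ico, sub_zero, sub_zero]
  have h2 : ∀ e : ℕ, ((r : ℤ) ^ e).toNat = r ^ e := fun e => by
    exact_mod_cast Int.toNat_natCast (r ^ e)
  rw [h2, h2, pow_add]
  ring

theorem levels_aux {h a b D0 D1 D2 C3 B H X X' : ℕ} {T : Finset Pnt} {n : Pnt → ℤ}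
    {PP : Finset ℕ} (ha : 1 ≤ a) (hab : a ≤ b) (hD : D0 ≤ D1)
    (hprime : ∀ r ∈ PP, r.Prime) (hX1 : 1 ≤ X) (hX : ∀ r ∈ PP, X ≤ r) (hX' : ∀ r ∈ PP, r ≤ X')
    (hcard : (h + 3) * 2 ^ (h + 3) * (2 * B) + (h + 3) * (h + 3) < PP.card)
    (hH : 1 ≤ H) (ht : ∀ t ∈ T, ∀ i, (t i).natAbs ≤ H) (hn : ∀ t ∈ T, (n t).natAbs ≤ H)
    (hB0 : D0 * hgt (Fin 3) D0 H * H ^ D0 < X ^ B)
    (hB1 : D1 * hgt (Fin 2) D1 H * H ^ D1 < X ^ B)
    (hB2 : D2 * hgt (Fin 2) D2 H * H ^ D2 < X ^ B)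
    (h0 : ∀ U ⊆ T, ∀ Q ⊆ PP, Q.card = h →
      (∀ r ∈ Q, ∀ t ∈ U, ∀ t' ∈ U, ∀ i, ((r : ℤ) ^ a) ∣ t i - t' i) →
      ∃ G : MvPolynomial (Fin 3) ℤ, G ≠ 0 ∧ G.totalDegree ≤ D0 ∧ ∀ t ∈ U, eval (v3 n t) G = 0)
    (h1 : ∀ U ⊆ T, ∀ Q ⊆ PP, Q.card = h + 1 →
      (∃ G : MvPolynomial (Fin 3) ℤ, G ≠ 0 ∧ G.totalDegree ≤ D0 ∧ ∀ t ∈ U, eval (v3 n t) G = 0) →
      (∀ r ∈ Q, TwoPar U n ((r : ℤ) ^ a)) →
      ∃ R : MvPolynomial (Fin 2) ℤ, R ≠ 0 ∧ R.totalDegree ≤ D1 ∧ ∀ t ∈ U, eval t R = 0)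
    (h2 : ∀ U ⊆ T, ∀ Q ⊆ PP, Q.card = h + 2 →
      (∃ R : MvPolynomial (Fin 2) ℤ, R ≠ 0 ∧ R.totalDegree ≤ D1 ∧ ∀ t ∈ U, eval t R = 0) →
      (∀ r ∈ Q, OnePar U ((r : ℤ) ^ b)) →
      ∀ j : Fin 2, ∃ E : MvPolynomial (Fin 2) ℤ, E ≠ 0 ∧ E.totalDegree ≤ D2 ∧
        ∀ t ∈ U, eval (v2 n j t) E = 0)
    (h3 : ∀ U ⊆ T, ∀ Q ⊆ PP, Q.card = h + 3 →
      (∀ r ∈ Q, OneParN U n ((r : ℤ) ^ b)) → U.card ≤ C3) :
    T.card ≤ lconst PP.card h D0 D1 D2 C3 * X' ^ ((a + b) * (h + 3)) := by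
  classical
  obtain ⟨sel0, hsel0⟩ := exists_sel0 hH ht hn h0
  have hsel0' : ∀ Q ⊆ PP, Q.card = h → ∀ t ∈ T, Phi0 n D0 H (sel0 Q t) t :=
    fun Q hQ hc => (hsel0 Q hQ hc).1
  obtain ⟨sel1, hsel1⟩ := exists_sel1 hH ht ha hD hprime h1 sel0 hsel0'
  have hsel1' : ∀ Q ⊆ PP, Q.card = h + 1 → ∀ t ∈ T, good1 n sel0 Q t → Phi1 D1 H (sel1 Q t) t :=
    fun Q hQ hc => (hsel1 Q hQ hc).1
  obtain ⟨sel2, hsel2⟩ := exists_sel2 (a := a) hH ht hn hprime h2 sel0 sel1 hsel1'
  have hsel2' : ∀ Q ⊆ PP, Q.card = h + 2 → ∀ j, ∀ t ∈ T, good2 n sel0 sel1 Q t →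
      Phi2 n D2 H j (sel2 Q j t) t := fun Q hQ hc j => (hsel2 Q hQ hc j).1
  have hfree := exists_free hH ht hn hprime hX1 hX hcard hB0 hB1 hB2 sel0 sel1 sel2 hsel0' hsel1'
    hsel2'
  have hWex : ∀ t : Pnt, ∃ W : Finset ℕ, t ∈ T → W ⊆ PP ∧ W.card = h + 3 ∧
      (∀ Q ⊆ W, Q.card = h + 1 → good1 n sel0 Q t) ∧
      (∀ Q ⊆ W, Q.card = h + 1 → ∀ r ∈ W, r ∉ Q →
        ¬ (r : ℤ) ∣ eval t (pderiv (sel1 Q t).2 (sel1 Q t).1)) ∧
      (∀ Q ⊆ W, Q.card = h + 2 → good2 n sel0 sel1 Q t) ∧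
      (∀ Q ⊆ W, Q.card = h + 2 → ∀ r ∈ W, r ∉ Q → ∀ j, (sel2 Q j t).degreeOf 0 ≠ 0 →
        ¬ (r : ℤ) ∣ eval (v2 n j t) (pderiv 0 (sel2 Q j t))) := by
    intro t
    by_cases htT : t ∈ T
    · obtain ⟨W, hW⟩ := hfree t htT
      exact ⟨W, fun _ => hW⟩
    · exact ⟨∅, fun h => absurd h htT⟩
  choose Wf hWf using hWex
  -- pigeonhole on `W`
  obtain ⟨U0, hU0, hcU0, hWc⟩ := pigeon T Wf (2 ^ PP.card) (by
    have : T.image Wf ⊆ PP.powerset := by
      intro W hW
      obtain ⟨t, htT, rfl⟩ := Finset.mem_image.mp hW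
      exact Finset.mem_powerset.mpr (hWf t htT).1
    exact (Finset.card_le_card this).trans (by rw [Finset.card_powerset]))
  rcases U0.eq_empty_or_nonempty with hemp | ⟨t0, ht0⟩
  · rw [hemp, Finset.card_empty, mul_zero] at hcU0
    omega
  obtain ⟨W, hWeq⟩ : ∃ W, W = Wf t0 := ⟨_, rfl⟩
  have hWP : ∀ t ∈ U0, _ := fun t htU => hWf t (hU0 htU)
  have hWt : ∀ t ∈ U0, Wf t = W := fun t htU => by rw [hWeq]; exact hWc t htU t0 ht0
  obtain ⟨hWPP, hWcard, _⟩ := hWf t0 (hU0 ht0)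
  rw [← hWeq] at hWPP hWcard
  have hg1 : ∀ t ∈ U0, ∀ Q ⊆ W, Q.card = h + 1 → good1 n sel0 Q t := fun t htU => by
    have := (hWP t htU).2.2.1; rwa [hWt t htU] at this
  have hg1' : ∀ t ∈ U0, ∀ Q ⊆ W, Q.card = h + 1 → ∀ r ∈ W, r ∉ Q →
      ¬ (r : ℤ) ∣ eval t (pderiv (sel1 Q t).2 (sel1 Q t).1) := fun t htU => by
    have := (hWP t htU).2.2.2.1; rwa [hWt t htU] at this
  have hg2 : ∀ t ∈ U0, ∀ Q ⊆ W, Q.card = h + 2 → good2 n sel0 sel1 Q t := fun t htU => by
    have := (hWP t htU).2.2.2.2.1; rwa [hWt t htU] at this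
  have hg2' : ∀ t ∈ U0, ∀ Q ⊆ W, Q.card = h + 2 → ∀ r ∈ W, r ∉ Q → ∀ j,
      (sel2 Q j t).degreeOf 0 ≠ 0 →
        ¬ (r : ℤ) ∣ eval (v2 n j t) (pderiv 0 (sel2 Q j t)) := fun t htU => by
    have := (hWP t htU).2.2.2.2.2; rwa [hWt t htU] at this
  -- the sets `Q1 r`
  have hQ1 : ∀ r, ∃ Q : Finset ℕ, r ∈ W → Q ⊆ W.erase r ∧ Q.card = h + 1 := by
    intro r
    by_cases hr : r ∈ W
    · obtain ⟨Q, hQ, hQc⟩ := Finset.exists_subset_card_eq (s := W.erase r) (n := h + 1)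
        (by rw [Finset.card_erase_of_mem hr, hWcard]; omega)
      exact ⟨Q, fun _ => ⟨hQ, hQc⟩⟩
    · exact ⟨∅, fun h => absurd h hr⟩
  choose Q1 hQ1 using hQ1
  -- step A
  obtain ⟨U1, hU1, hcU1, hA⟩ := pigeon_family W
    (fun r t => ((sel1 (Q1 r) t).2, t (1 - (sel1 (Q1 r) t).2) % (r : ℤ) ^ b,
      t ((sel1 (Q1 r) t).2) % (r : ℤ) ^ a)) (2 * X' ^ (a + b)) U0 (fun r hr => by
      have h5 := card_codeA (U := U0) r a b (hprime r (hWPP hr)).one_lt.le
        (fun t => (sel1 (Q1 r) t).2)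
      exact h5.trans (Nat.mul_le_mul_left _ (Nat.pow_le_pow_left (hX' r (hWPP hr)) _)))
  have hU1T : U1 ⊆ T := hU1.trans hU0
  have hAj : ∀ r ∈ W, ∀ t ∈ U1, ∀ t' ∈ U1, (sel1 (Q1 r) t).2 = (sel1 (Q1 r) t').2 :=
    fun r hr t htU t' ht'U => congrArg Prod.fst (hA r hr t htU t' ht'U)
  have hAb : ∀ r ∈ W, ∀ t ∈ U1, ∀ t' ∈ U1, ∀ i, i ≠ (sel1 (Q1 r) t').2 →
      (r : ℤ) ^ b ∣ t i - t' i := by
    intro r hr t htU t' ht'U i hi
    have h5 := congrArg (fun x => x.2.1) (hA r hr t htU t' ht'U)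
    simp only at h5
    rw [hAj r hr t htU t' ht'U] at h5
    rw [fin2_eq i _ hi]
    exact dvd_sub_of_emod_eq h5
  have hAa : ∀ r ∈ W, ∀ t ∈ U1, ∀ t' ∈ U1, ∀ i, (r : ℤ) ^ a ∣ t i - t' i := by
    intro r hr t htU t' ht'U i
    by_cases hi : i = (sel1 (Q1 r) t').2
    · have h5 := congrArg (fun x => x.2.2) (hA r hr t htU t' ht'U)
      simp only at h5
      rw [hAj r hr t htU t' ht'U] at h5
      rw [hi]
      exact dvd_sub_of_emod_eq h5
    · exact dvd_pow_le hab (hAb r hr t htU t' ht'U i hi)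
  have hAr : ∀ r ∈ W, ∀ t ∈ U1, ∀ t' ∈ U1, ∀ i, (r : ℤ) ∣ t i - t' i :=
    fun r hr t htU t' ht'U i => (dvd_pow_self _ (by omega)).trans (hAa r hr t htU t' ht'U i)
  -- step B
  obtain ⟨U2, hU2, hcU2, hBc⟩ := pigeon_family (W.powersetCard h) sel0 (D0 + 1) U1
    (fun Q hQ => by
      obtain ⟨hQW, hQc⟩ := Finset.mem_powersetCard.mp hQ
      exact (hsel0 Q (hQW.trans hWPP) hQc).2 U1 hU1T (fun r hr t htU t' ht'U i =>
        hAa r (hQW hr) t htU t' ht'U i))
  have hU2T : U2 ⊆ T := hU2.trans hU1T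
  have hBsel : ∀ Q ⊆ W, Q.card = h + 1 → ∀ r ∈ Q, ∀ t ∈ U2, ∀ t' ∈ U2,
      sel0 (Q.erase r) t = sel0 (Q.erase r) t' := by
    intro Q hQ hQc r hr t htU t' ht'U
    exact hBc (Q.erase r) (Finset.mem_powersetCard.mpr ⟨(Finset.erase_subset _ _).trans hQ,
      by rw [Finset.card_erase_of_mem hr, hQc]; simp⟩) t htU t' ht'U
  -- step C
  obtain ⟨U3, hU3, hcU3, hC⟩ := pigeon_family ((W.powersetCard (h + 1)) ×ˢ W)
    (fun p t => if p.2 ∈ p.1 ∧ nd0 sel0 p.1 t then n t % (p.2 : ℤ) else 0) (D0 + 1) U2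
    (fun p hp => by
      obtain ⟨hp1, hp2⟩ := Finset.mem_product.mp hp
      obtain ⟨hQW, hQc⟩ := Finset.mem_powersetCard.mp hp1
      rcases U2.eq_empty_or_nonempty with he | ⟨t1, ht1⟩
      · simp [he]
      by_cases hcond : p.2 ∈ p.1 ∧ nd0 sel0 p.1 t1
      · obtain ⟨hr, hnd⟩ := hcond
        have hnd' : ∀ t ∈ U2, nd0 sel0 p.1 t := fun t htU r' hr' => by
          rw [hBsel p.1 hQW hQc r' hr' t htU t1 ht1]; exact hnd r' hr'
        have h5 : (U2.image fun t => if p.2 ∈ p.1 ∧ nd0 sel0 p.1 t then n t % (p.2 : ℤ) else 0) =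
            U2.image fun t => v3 n t 0 % (p.2 : ℤ) := by
          refine Finset.image_congr fun t htU => ?_
          simp only [hr, hnd' t htU, and_self, if_true]
          rfl
        rw [h5]
        have hQe : p.1.erase p.2 ⊆ PP := (Finset.erase_subset _ _).trans (hQW.trans hWPP)
        have hQec : (p.1.erase p.2).card = h := by
          rw [Finset.card_erase_of_mem hr, hQc]; simp
        have h6 := card_residues (hprime p.2 (hWPP hp2)) (sel0 (p.1.erase p.2) t1) 0 U2 (v3 n)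
          (fun t htU t' ht'U i hi => by
            obtain ⟨i', rfl⟩ := Fin.exists_succ_eq.mpr hi
            rw [v3_succ, v3_succ]
            exact hAr p.2 hp2 t (hU2 htU) t' (hU2 ht'U) i')
          (fun t htU => by
            rw [hBsel p.1 hQW hQc p.2 hr t1 ht1 t htU]
            exact (hsel0' _ hQe hQec t (hU2T htU)).2.2.2.1)
          (fun t htU => by
            rw [hBsel p.1 hQW hQc p.2 hr t1 ht1 t htU]
            exact (hg1 t (hU1 (hU2 htU)) p.1 hQW hQc p.2 hr).resolve_left (hnd' t htU p.2 hr))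
        exact (h6.trans (hsel0' _ hQe hQec t1 (hU2T ht1)).2.1).trans (Nat.le_succ _)
      · have h5 : (U2.image fun t => if p.2 ∈ p.1 ∧ nd0 sel0 p.1 t then n t % (p.2 : ℤ) else 0) ⊆
            {0} := by
          intro x hx
          obtain ⟨t, htU, rfl⟩ := Finset.mem_image.mp hx
          rw [if_neg, Finset.mem_singleton]
          rintro ⟨h6, h7⟩
          exact hcond ⟨h6, fun r' hr' => by
            rw [hBsel p.1 hQW hQc r' hr' t1 ht1 t htU]; exact h7 r' hr'⟩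
        refine (Finset.card_le_card h5).trans ?_
        simp)
  have hU3T : U3 ⊆ T := hU3.trans hU2T
  have hC1 : ∀ Q ⊆ W, Q.card = h + 1 → ∀ t ∈ U3, ∀ t' ∈ U3,
      c1 n sel0 a Q t = c1 n sel0 a Q t' := by
    intro Q hQ hQc t htU t' ht'U
    refine c1_eq (fun r hr i => hAa r (hQ hr) t (hU2 (hU3 htU)) t' (hU2 (hU3 ht'U)) i)
      (fun r hr => hBsel Q hQ hQc r hr t (hU3 htU) t' (hU3 ht'U)) (fun hn1 hn2 r hr => ?_)
    have h5 := hC (Q, r) (Finset.mem_product.mpr ⟨Finset.mem_powersetCard.mpr ⟨hQ, hQc⟩, hQ hr⟩)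
      t htU t' ht'U
    simpa only [hr, hn1, hn2, and_self, if_true] using h5
  -- step D
  obtain ⟨U4, hU4, hcU4, hDc⟩ := pigeon_family (W.powersetCard (h + 1)) sel1 (2 * D1 + 1 + 1) U3
    (fun Q hQ => by
      obtain ⟨hQW, hQc⟩ := Finset.mem_powersetCard.mp hQ
      exact (hsel1 Q (hQW.trans hWPP) hQc).2 U3 hU3T
        (fun t htU => hg1 t (hU1 (hU2 (hU3 htU))) Q hQW hQc) (hC1 Q hQW hQc))
  have hU4T : U4 ⊆ T := hU4.trans hU3T
  have hU41 : U4 ⊆ U1 := hU4.trans (hU3.trans hU2)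
  have hU40 : U4 ⊆ U0 := hU41.trans hU1
  -- `R` at the prime `r`
  have hR : ∀ r ∈ W, ∀ t ∈ U4, ∀ t' ∈ U4, sel1 (Q1 r) t = sel1 (Q1 r) t' := by
    intro r hr t htU t' ht'U
    exact hDc (Q1 r) (Finset.mem_powersetCard.mpr
      ⟨(hQ1 r hr).1.trans (Finset.erase_subset _ _), (hQ1 r hr).2⟩) t htU t' ht'U
  have hQ1W : ∀ r ∈ W, Q1 r ⊆ W := fun r hr => (hQ1 r hr).1.trans (Finset.erase_subset _ _)
  have hRphi : ∀ r ∈ W, ∀ t ∈ U4, Phi1 D1 H (sel1 (Q1 r) t) t := fun r hr t htU =>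
    hsel1' (Q1 r) ((hQ1W r hr).trans hWPP) (hQ1 r hr).2 t (hU4T htU)
      (hg1 t (hU40 htU) (Q1 r) (hQ1W r hr) (hQ1 r hr).2)
  have hRder : ∀ r ∈ W, ∀ t ∈ U4,
      ¬ (r : ℤ) ∣ eval t (pderiv (sel1 (Q1 r) t).2 (sel1 (Q1 r) t).1) := fun r hr t htU =>
    hg1' t (hU40 htU) (Q1 r) (hQ1W r hr) (hQ1 r hr).2 r hr
      (fun h => Finset.notMem_erase r W ((hQ1 r hr).1 h))
  have hDb : ∀ r ∈ W, ∀ t ∈ U4, ∀ t' ∈ U4, ∀ i, (r : ℤ) ^ b ∣ t i - t' i := by
    intro r hr t htU t' ht'U i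
    by_cases hi : i = (sel1 (Q1 r) t').2
    · rw [hi]
      refine lift_unique (hprime r (hWPP hr)) (sel1 (Q1 r) t').1 _ t t'
        (fun i' hi' => hAb r hr t (hU41 htU) t' (hU41 ht'U) i' hi')
        (hAr r hr t (hU41 htU) t' (hU41 ht'U) _) (hRder r hr t' ht'U) ?_
      rw [(hRphi r hr t' ht'U).2.2.2.1, ← hR r hr t htU t' ht'U, (hRphi r hr t htU).2.2.2.1, sub_zero]
      exact dvd_zero _
    · exact hAb r hr t (hU41 htU) t' (hU41 ht'U) i hi
  have hC2 : ∀ Q ⊆ W, Q.card = h + 2 → ∀ t ∈ U4, ∀ t' ∈ U4,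
      c2 n sel0 sel1 a b Q t = c2 n sel0 sel1 a b Q t' := by
    intro Q hQ hQc t htU t' ht'U
    have he : ∀ r ∈ Q, Q.erase r ⊆ W ∧ (Q.erase r).card = h + 1 := fun r hr =>
      ⟨(Finset.erase_subset _ _).trans hQ, by rw [Finset.card_erase_of_mem hr, hQc]; simp⟩
    exact c2_eq (fun r hr i => hDb r (hQ hr) t htU t' ht'U i)
      (fun r hr => hC1 _ (he r hr).1 (he r hr).2 t (hU4 htU) t' (hU4 ht'U))
      (fun r hr => hDc _ (Finset.mem_powersetCard.mpr (he r hr)) t htU t' ht'U)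
  -- step E
  obtain ⟨U5, hU5, hcU5, hE⟩ := pigeon_family
    ((W.powersetCard (h + 2)) ×ˢ (univ : Finset (Fin 2))) (fun p => sel2 p.1 p.2) (D2 + 1) U4
    (fun p hp => by
      obtain ⟨hp1, _⟩ := Finset.mem_product.mp hp
      obtain ⟨hQW, hQc⟩ := Finset.mem_powersetCard.mp hp1
      exact (hsel2 p.1 (hQW.trans hWPP) hQc p.2).2 U4 hU4T
        (fun t htU => hg2 t (hU40 htU) p.1 hQW hQc) (hC2 p.1 hQW hQc))
  have hU5T : U5 ⊆ T := hU5.trans hU4T
  have hEc : ∀ Q ⊆ W, Q.card = h + 2 → ∀ j, ∀ t ∈ U5, ∀ t' ∈ U5, sel2 Q j t = sel2 Q j t' :=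
    fun Q hQ hQc j t htU t' ht'U => hE (Q, j) (Finset.mem_product.mpr
      ⟨Finset.mem_powersetCard.mpr ⟨hQ, hQc⟩, Finset.mem_univ _⟩) t htU t' ht'U
  have hEphi : ∀ Q ⊆ W, Q.card = h + 2 → ∀ j, ∀ t ∈ U5, Phi2 n D2 H j (sel2 Q j t) t :=
    fun Q hQ hQc j t htU => hsel2' Q (hQ.trans hWPP) hQc j t (hU5T htU)
      (hg2 t (hU40 (hU5 htU)) Q hQ hQc)
  -- the last bound
  have hlast : U5.card ≤ D2 ^ 2 + (D2 + 1) ^ (h + 3) * C3 := by
    rcases U5.eq_empty_or_nonempty with he | ⟨t1, ht1⟩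
    · simp [he]
    by_cases hcase : ∃ Q ∈ W.powersetCard (h + 2), ∀ j, (sel2 Q j t1).degreeOf 0 = 0
    · obtain ⟨Q, hQ, hdeg⟩ := hcase
      obtain ⟨hQW, hQc⟩ := Finset.mem_powersetCard.mp hQ
      have h5 : ∀ j : Fin 2, (U5.image fun t => t j).card ≤ D2 := by
        intro j
        obtain ⟨R, hR0, hRd, hRe⟩ := exists_drop _ (hEphi Q hQW hQc j t1 ht1).1 (hdeg j)
        refine (card_roots_one R hR0 _ fun u hu => ?_).trans
          (hRd.trans (hEphi Q hQW hQc j t1 ht1).2.1)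
        obtain ⟨t, htU, rfl⟩ := Finset.mem_image.mp hu
        have h6 := (hEphi Q hQW hQc j t htU).2.2.2.1
        rw [hEc Q hQW hQc j t htU t1 ht1, hRe] at h6
        rw [← h6]
        congr 2
        funext i
        fin_cases i
        rfl
      have h6 : U5.card ≤ D2 * D2 := by
        have h7 : U5.card ≤ ((U5.image fun t => t 0) ×ˢ (U5.image fun t => t 1)).card := by
          refine Finset.card_le_card_of_injOn (fun t => (t 0, t 1)) ?_ ?_
          · intro t htU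
            exact Finset.mem_product.mpr ⟨Finset.mem_image_of_mem _ htU,
              Finset.mem_image_of_mem _ htU⟩
          · intro t _ t' _ htt
            funext i
            fin_cases i
            · exact congrArg Prod.fst htt
            · exact congrArg Prod.snd htt
        rw [Finset.card_product] at h7
        exact h7.trans (Nat.mul_le_mul (h5 0) (h5 1))
      calc U5.card ≤ D2 ^ 2 := by rw [pow_two]; exact h6
        _ ≤ _ := Nat.le_add_right _ _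
    · push Not at hcase
      have hWe : ∀ r ∈ W, W.erase r ⊆ W ∧ (W.erase r).card = h + 2 := fun r hr =>
        ⟨Finset.erase_subset _ _, by rw [Finset.card_erase_of_mem hr, hWcard]; simp⟩
      have hj : ∀ r, ∃ j : Fin 2, r ∈ W → (sel2 (W.erase r) j t1).degreeOf 0 ≠ 0 := by
        intro r
        by_cases hr : r ∈ W
        · obtain ⟨j, hj⟩ := hcase (W.erase r) (Finset.mem_powersetCard.mpr (hWe r hr))
          exact ⟨j, fun _ => hj⟩
        · exact ⟨0, fun h => absurd h hr⟩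
      choose jf hjf using hj
      have hder2 : ∀ r ∈ W, ∀ t ∈ U5, ¬ (r : ℤ) ∣
          eval (v2 n (jf r) t) (pderiv 0 (sel2 (W.erase r) (jf r) t1)) := by
        intro r hr t htU
        have h5 := hg2' t (hU40 (hU5 htU)) (W.erase r) (hWe r hr).1 (hWe r hr).2 r hr
          (Finset.notMem_erase r W) (jf r)
        rw [hEc _ (hWe r hr).1 (hWe r hr).2 (jf r) t htU t1 ht1] at h5
        exact h5 (hjf r hr)
      have hzero2 : ∀ r ∈ W, ∀ t ∈ U5,
          eval (v2 n (jf r) t) (sel2 (W.erase r) (jf r) t1) = 0 := by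
        intro r hr t htU
        rw [hEc _ (hWe r hr).1 (hWe r hr).2 (jf r) t1 ht1 t htU]
        exact (hEphi _ (hWe r hr).1 (hWe r hr).2 (jf r) t htU).2.2.2.1
      obtain ⟨U6, hU6, hcU6, hF⟩ := pigeon_family W (fun r t => n t % (r : ℤ)) (D2 + 1) U5
        (fun r hr => by
          have h6 := card_residues (hprime r (hWPP hr)) (sel2 (W.erase r) (jf r) t1) 0 U5
            (v2 n (jf r))
            (fun t htU t' ht'U i hi => by
              have hi1 : i = 1 := by fin_cases i; exact absurd rfl hi; rfl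
              rw [hi1, v2_one, v2_one]
              exact hAr r hr t (hU41 (hU5 htU)) t' (hU41 (hU5 ht'U)) _)
            (hzero2 r hr) (hder2 r hr)
          exact (h6.trans (hEphi _ (hWe r hr).1 (hWe r hr).2 (jf r) t1 ht1).2.1).trans
            (Nat.le_succ _))
      have hC3 : U6.card ≤ C3 := by
        rcases U6.eq_empty_or_nonempty with he | ⟨t2, ht2⟩
        · simp [he]
        have ht24 : t2 ∈ U4 := hU5 (hU6 ht2)
        refine h3 U6 (hU6.trans hU5T) W hWPP hWcard fun r hr => ?_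
        have hrp := hprime r (hWPP hr)
        obtain ⟨h5, h6⟩ := onePar_of_smooth (U := U6) (e := b) hrp (sel1 (Q1 r) t2).1
          (sel1 (Q1 r) t2).2 t2 (fun t htU i => hDb r hr t (hU5 (hU6 htU)) t2 ht24 i)
          (fun t htU => by
            rw [← hR r hr t (hU5 (hU6 htU)) t2 ht24]
            exact (hRphi r hr t (hU5 (hU6 htU))).2.2.2.1) (hRder r hr t2 ht24)
        refine ⟨_, h5, h6, fun n' m => ?_⟩
        refine implicit_mv (sel2 (W.erase r) (jf r) t1) 0 (v2 n (jf r)) (v2 n (jf r) t2)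
          (fun i hi m => ?_) (fun t htU i => ?_) ?_ (fun t htU => hzero2 r hr t (hU6 htU)) m
        · have hi1 : i = 1 := by fin_cases i; exact absurd rfl hi; rfl
          rw [hi1]
          exact h6 (jf r) n' m
        · fin_cases i
          · refine lift_unique hrp (sel2 (W.erase r) (jf r) t1) 0 (v2 n (jf r) t)
              (v2 n (jf r) t2) (fun i hi => ?_) ?_ (hder2 r hr t2 (hU6 ht2)) ?_
            · have hi1 : i = 1 := by fin_cases i; exact absurd rfl hi; rfl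
              rw [hi1, v2_one, v2_one]
              exact hDb r hr t (hU5 (hU6 htU)) t2 ht24 _
            · exact dvd_sub_of_emod_eq (hF r hr t htU t2 ht2)
            · rw [hzero2 r hr t (hU6 htU), hzero2 r hr t2 (hU6 ht2), sub_zero]
              exact dvd_zero _
          · exact hDb r hr t (hU5 (hU6 htU)) t2 ht24 _
        · refine IsCoprime.pow_right ?_
          rw [isCoprime_comm, Prime.coprime_iff_not_dvd (Nat.prime_iff_prime_int.mp hrp)]
          exact hder2 r hr t2 (hU6 ht2)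
      calc U5.card ≤ (D2 + 1) ^ W.card * U6.card := hcU6
        _ ≤ (D2 + 1) ^ (h + 3) * C3 := by rw [hWcard]; exact Nat.mul_le_mul_left _ hC3
        _ ≤ _ := Nat.le_add_left _ _
  -- put everything together
  rw [Finset.card_powersetCard, hWcard] at hcU2 hcU4
  rw [Finset.card_product, Finset.card_powersetCard, hWcard] at hcU3
  rw [Finset.card_product, Finset.card_powersetCard, hWcard, Finset.card_univ,
    Fintype.card_fin] at hcU5
  rw [hWcard] at hcU1
  calc T.card ≤ 2 ^ PP.card * U0.card := hcU0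
    _ ≤ 2 ^ PP.card * ((2 * X' ^ (a + b)) ^ (h + 3) * U1.card) := Nat.mul_le_mul_left _ hcU1
    _ ≤ 2 ^ PP.card * ((2 * X' ^ (a + b)) ^ (h + 3) * ((D0 + 1) ^ ((h + 3).choose h) *
          ((D0 + 1) ^ ((h + 3).choose (h + 1) * (h + 3)) *
            ((2 * D1 + 1 + 1) ^ ((h + 3).choose (h + 1)) *
              ((D2 + 1) ^ ((h + 3).choose (h + 2) * 2) *
                (D2 ^ 2 + (D2 + 1) ^ (h + 3) * C3)))))) := by
        refine Nat.mul_le_mul_left _ (Nat.mul_le_mul_left _ (hcU2.trans (Nat.mul_le_mul_left _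
          (hcU3.trans (Nat.mul_le_mul_left _ (hcU4.trans (Nat.mul_le_mul_left _
            (hcU5.trans (Nat.mul_le_mul_left _ hlast)))))))))
    _ = lconst PP.card h D0 D1 D2 C3 * X' ^ ((a + b) * (h + 3)) := by
        rw [lconst, mul_pow, ← pow_mul]
        ring

end Crest.Agent.R22.Levels859
end

-- ▼ part R22/LevelsMain859
section

/-! Row 22: the level bookkeeping theorem in terms of helper250's `Par` (helper859). -/

set_option autoImplicit false

open Finset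

namespace Crest.Agent.R22.Levels859

open Crest.Agent.R022 MvPolynomial Chain859

theorem TwoPar.par {U : Finset Pnt} {n : Pnt → ℤ} {l : ℤ} (h : TwoPar U n l) :
    Par 2 (↑U : Set (Fin 2 → ℤ)) l {(fun t => t 0), (fun t => t 1), n} := by
  obtain ⟨s, h1, h2, h3⟩ := h
  refine ⟨s, h1, fun φ hφ n' m => ?_⟩
  rcases hφ with rfl | rfl | rfl
  · exact h2 0 n' m
  · exact h2 1 n' m
  · exact h3 n' m

theorem OnePar.par {U : Finset Pnt} {l : ℤ} (h : OnePar U l) :
    Par 1 (↑U : Set (Fin 2 → ℤ)) l {(fun t => t 0), (fun t => t 1)} := by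
  obtain ⟨s, h1, h2⟩ := h
  refine ⟨s, h1, fun φ hφ n' m => ?_⟩
  rcases hφ with rfl | rfl
  · exact h2 0 n' m
  · exact h2 1 n' m

theorem OneParN.par {U : Finset Pnt} {n : Pnt → ℤ} {l : ℤ} (h : OneParN U n l) :
    Par 1 (↑U : Set (Fin 2 → ℤ)) l {(fun t => t 0), (fun t => t 1), n} := by
  obtain ⟨s, h1, h2, h3⟩ := h
  refine ⟨s, h1, fun φ hφ n' m => ?_⟩
  rcases hφ with rfl | rfl | rfl
  · exact h2 0 n' m
  · exact h2 1 n' m
  · exact h3 n' m

/-- **Level bookkeeping.** From the four level theorems on the slice to the bound of the number of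
points. -/
theorem levels {h a b D0 D1 D2 C3 B H X X' : ℕ} {T : Finset (Fin 2 → ℤ)} {n : (Fin 2 → ℤ) → ℤ}
    {PP : Finset ℕ} (ha : 1 ≤ a) (hab : a ≤ b) (hD : D0 ≤ D1)
    (hprime : ∀ r ∈ PP, r.Prime) (hX1 : 1 ≤ X) (hX : ∀ r ∈ PP, X ≤ r) (hX' : ∀ r ∈ PP, r ≤ X')
    (hcard : (h + 3) * 2 ^ (h + 3) * (2 * B) + (h + 3) * (h + 3) < PP.card)
    (hH : 1 ≤ H) (ht : ∀ t ∈ T, ∀ i, (t i).natAbs ≤ H) (hn : ∀ t ∈ T, (n t).natAbs ≤ H)
    (hB0 : D0 * hgt (Fin 3) D0 H * H ^ D0 < X ^ B)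
    (hB1 : D1 * hgt (Fin 2) D1 H * H ^ D1 < X ^ B)
    (hB2 : D2 * hgt (Fin 2) D2 H * H ^ D2 < X ^ B)
    (h0 : ∀ U ⊆ T, ∀ Q ⊆ PP, Q.card = h →
      (∀ r ∈ Q, ∀ t ∈ U, ∀ t' ∈ U, ∀ i, ((r : ℤ) ^ a) ∣ t i - t' i) →
      ∃ G : MvPolynomial (Fin 3) ℤ, G ≠ 0 ∧ G.totalDegree ≤ D0 ∧
        ∀ t ∈ U, eval ![n t, t 0, t 1] G = 0)
    (h1 : ∀ U ⊆ T, ∀ Q ⊆ PP, Q.card = h + 1 →
      (∃ G : MvPolynomial (Fin 3) ℤ, G ≠ 0 ∧ G.totalDegree ≤ D0 ∧
        ∀ t ∈ U, eval ![n t, t 0, t 1] G = 0) →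
      (∀ r ∈ Q, Par 2 (↑U : Set (Fin 2 → ℤ)) ((r : ℤ) ^ a)
        {(fun t => t 0), (fun t => t 1), n}) →
      ∃ R : MvPolynomial (Fin 2) ℤ, R ≠ 0 ∧ R.totalDegree ≤ D1 ∧ ∀ t ∈ U, eval t R = 0)
    (h2 : ∀ U ⊆ T, ∀ Q ⊆ PP, Q.card = h + 2 →
      (∃ R : MvPolynomial (Fin 2) ℤ, R ≠ 0 ∧ R.totalDegree ≤ D1 ∧ ∀ t ∈ U, eval t R = 0) →
      (∀ r ∈ Q, Par 1 (↑U : Set (Fin 2 → ℤ)) ((r : ℤ) ^ b) {(fun t => t 0), (fun t => t 1)}) →
      ∀ j : Fin 2, ∃ E : MvPolynomial (Fin 2) ℤ, E ≠ 0 ∧ E.totalDegree ≤ D2 ∧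
        ∀ t ∈ U, eval ![n t, t j] E = 0)
    (h3 : ∀ U ⊆ T, ∀ Q ⊆ PP, Q.card = h + 3 →
      (∀ r ∈ Q, Par 1 (↑U : Set (Fin 2 → ℤ)) ((r : ℤ) ^ b)
        {(fun t => t 0), (fun t => t 1), n}) → U.card ≤ C3) :
    T.card ≤ lconst PP.card h D0 D1 D2 C3 * X' ^ ((a + b) * (h + 3)) :=
  levels_aux ha hab hD hprime hX1 hX hX' hcard hH ht hn hB0 hB1 hB2 h0
    (fun U hU Q hQ hc hG hp => h1 U hU Q hQ hc hG fun r hr => (hp r hr).par)
    (fun U hU Q hQ hc hR hp j => h2 U hU Q hQ hc hR (fun r hr => (hp r hr).par) j)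
    (fun U hU Q hQ hc hp => h3 U hU Q hQ hc fun r hr => (hp r hr).par)

end Crest.Agent.R22.Levels859
end

-- ▼ part R22/Adapt859
section

/-! Row 22: adaptor from `levels` to the shape used by helper250's instantiation (helper859). -/

set_option autoImplicit false

open Finset

namespace Crest.Agent.R22.Levels859

open Crest.Agent.R022 MvPolynomial Chain859

/-- helper250's `LevelsStmt` with the additional hypothesis `D0 ≤ D1`. -/
def LevelsStmt' : Prop :=
  ∀ h a b D0 D1 D2 C3 : ℕ, 1 ≤ a → a ≤ b → D0 ≤ D1 → ∃ c0 c1 : ℕ, ∀ B : ℕ, ∃ K Const : ℕ,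
    ∀ (H X X' : ℕ) (T : Finset (Fin 2 → ℤ)) (n : (Fin 2 → ℤ) → ℤ) (PP : Finset ℕ),
    PP.card = K → (∀ r ∈ PP, r.Prime ∧ X < r ∧ r ≤ X') → 1 ≤ H →
    (∀ t ∈ T, (∀ i, (t i).natAbs ≤ H) ∧ (n t).natAbs ≤ H) → c0 * H ^ c1 < X ^ (B + 1) →
    (∀ U ⊆ T, ∀ Q ⊆ PP, Q.card = h →
      (∀ r ∈ Q, ∀ t ∈ U, ∀ t' ∈ U, ∀ i, (r : ℤ) ^ a ∣ t i - t' i) →
      ∃ G : MvPolynomial (Fin 3) ℤ, G ≠ 0 ∧ G.totalDegree ≤ D0 ∧
        ∀ t ∈ U, MvPolynomial.eval ![n t, t 0, t 1] G = 0) →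
    (∀ U ⊆ T, ∀ Q ⊆ PP, Q.card = h + 1 →
      (∃ G : MvPolynomial (Fin 3) ℤ, G ≠ 0 ∧ G.totalDegree ≤ D0 ∧
        ∀ t ∈ U, MvPolynomial.eval ![n t, t 0, t 1] G = 0) →
      (∀ r ∈ Q, Par 2 (U : Set (Fin 2 → ℤ)) ((r : ℤ) ^ a) {(fun t => t 0), (fun t => t 1), n}) →
      ∃ R : MvPolynomial (Fin 2) ℤ, R ≠ 0 ∧ R.totalDegree ≤ D1 ∧
        ∀ t ∈ U, MvPolynomial.eval t R = 0) →
    (∀ U ⊆ T, ∀ Q ⊆ PP, Q.card = h + 2 →
      (∃ R : MvPolynomial (Fin 2) ℤ, R ≠ 0 ∧ R.totalDegree ≤ D1 ∧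
        ∀ t ∈ U, MvPolynomial.eval t R = 0) →
      (∀ r ∈ Q, Par 1 (U : Set (Fin 2 → ℤ)) ((r : ℤ) ^ b) {(fun t => t 0), (fun t => t 1)}) →
      ∀ j : Fin 2, ∃ E : MvPolynomial (Fin 2) ℤ, E ≠ 0 ∧ E.totalDegree ≤ D2 ∧
        ∀ t ∈ U, MvPolynomial.eval ![n t, t j] E = 0) →
    (∀ U ⊆ T, ∀ Q ⊆ PP, Q.card = h + 3 →
      (∀ r ∈ Q, Par 1 (U : Set (Fin 2 → ℤ)) ((r : ℤ) ^ b) {(fun t => t 0), (fun t => t 1), n}) →
      U.card ≤ C3) →
    T.card ≤ Const * X' ^ ((a + b) * (h + 3))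

/-- coefficient of the height bound -/
def hc0 (σ : Type*) [Fintype σ] [DecidableEq σ] (D : ℕ) : ℕ :=
  D * ((monos σ D).card * (monos σ D).card.factorial)

/-- exponent of the height bound -/
def hc1 (σ : Type*) [Fintype σ] [DecidableEq σ] (D : ℕ) : ℕ := D * (monos σ D).card + D

theorem hgt_eq (σ : Type*) [Fintype σ] [DecidableEq σ] (D H : ℕ) :
    D * hgt σ D H * H ^ D = hc0 σ D * H ^ hc1 σ D := by
  rw [hgt, hc0, hc1, pow_add]
  ring

theorem levelsStmt' : LevelsStmt' := by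
  intro h a b D0 D1 D2 C3 ha hab hD
  refine ⟨hc0 (Fin 3) D0 + hc0 (Fin 2) D1 + hc0 (Fin 2) D2,
    hc1 (Fin 3) D0 + hc1 (Fin 2) D1 + hc1 (Fin 2) D2, fun B => ?_⟩
  refine ⟨(h + 3) * 2 ^ (h + 3) * (2 * (B + 1)) + (h + 3) * (h + 3) + 1,
    lconst ((h + 3) * 2 ^ (h + 3) * (2 * (B + 1)) + (h + 3) * (h + 3) + 1) h D0 D1 D2 C3, ?_⟩
  intro H X X' T n PP hK hPP hH hT hlt h0 h1 h2 h3
  have hX1 : 1 ≤ X := by
    rcases Nat.eq_zero_or_pos X with hX | hX
    · rw [hX, zero_pow (by omega)] at hlt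
      omega
    · exact hX
  have key : ∀ c e : ℕ, c ≤ hc0 (Fin 3) D0 + hc0 (Fin 2) D1 + hc0 (Fin 2) D2 →
      e ≤ hc1 (Fin 3) D0 + hc1 (Fin 2) D1 + hc1 (Fin 2) D2 → c * H ^ e < X ^ (B + 1) := by
    intro c e hc he
    exact lt_of_le_of_lt (Nat.mul_le_mul hc (Nat.pow_le_pow_right hH he)) hlt
  rw [← hK]
  refine levels ha hab hD (fun r hr => (hPP r hr).1) hX1 (fun r hr => (hPP r hr).2.1.le)
    (fun r hr => (hPP r hr).2.2) (B := B + 1) (H := H) (by rw [hK]; omega) hH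
    (fun t ht => (hT t ht).1) (fun t ht => (hT t ht).2) ?_ ?_ ?_ h0 h1 h2 h3
  · rw [hgt_eq]; exact key _ _ (by omega) (by omega)
  · rw [hgt_eq]; exact key _ _ (by omega) (by omega)
  · rw [hgt_eq]; exact key _ _ (by omega) (by omega)

end Crest.Agent.R22.Levels859
end

-- ▼ part R22/InstC859

/-! Row 22 (helper250): instantiation: `SliceBoundAt` from the abstract level bookkeeping and the
four level theorems. -/

set_option autoImplicit false

namespace Crest.Agent.R22.Inst859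

open Crest.Agent.R022 Crest.Agent.R022.Torsor Crest.Agent.R022.Expand Crest.Agent.R022.Inst Crest.Agent.R22.Levels859

/-- a common size bound for all the coordinates -/
theorem exists_H {F : Polynomial ℤ} (hF : F.Monic) {k C M : ℕ} {A ρ : ℝ} (hA : 1 ≤ A)
    (hρ2 : ρ ≤ 2) {a0 : Fin F.natDegree → ℤ} (T : Finset (Fin 2 → ℤ)) (n : (Fin 2 → ℤ) → ℤ)
    (b : (Fin 2 → ℤ) → Fin F.natDegree → ℤ)
    (hT : ∀ t ∈ T, IsSPt hF k C M A ρ a0 t (n t) (b t)) :
    ∃ H : ℕ, 1 ≤ H ∧ (H : ℝ) ≤ ((C : ℝ) + 3) * A ^ (k + 2) ∧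
      ∀ t ∈ T, (∀ i, (t i).natAbs ≤ H) ∧ (n t).natAbs ≤ H := by
  have hC0 : (0 : ℝ) ≤ C := Nat.cast_nonneg _
  have hAk : 1 ≤ A ^ (k + 2) := one_le_pow₀ hA
  refine ⟨⌈((C : ℝ) + 2) * A ^ (k + 2)⌉₊, ?_, ?_, ?_⟩
  · refine Nat.one_le_ceil_iff.mpr ?_
    positivity
  · have h1 : ((⌈((C : ℝ) + 2) * A ^ (k + 2)⌉₊ : ℕ) : ℝ) < ((C : ℝ) + 2) * A ^ (k + 2) + 1 :=
      Nat.ceil_lt_add_one (by positivity)
    calc _ ≤ ((C : ℝ) + 2) * A ^ (k + 2) + 1 := h1.le
      _ ≤ ((C : ℝ) + 2) * A ^ (k + 2) + A ^ (k + 2) := by gcongr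
      _ = ((C : ℝ) + 3) * A ^ (k + 2) := by ring
  · have hHge : ((C : ℝ) + 2) * A ^ (k + 2) ≤ (⌈((C : ℝ) + 2) * A ^ (k + 2)⌉₊ : ℕ) := Nat.le_ceil _
    have hnat : ∀ x : ℤ, |(x : ℝ)| ≤ (⌈((C : ℝ) + 2) * A ^ (k + 2)⌉₊ : ℕ) →
        x.natAbs ≤ ⌈((C : ℝ) + 2) * A ^ (k + 2)⌉₊ := by
      intro x hx
      have h2 : ((x.natAbs : ℕ) : ℝ) ≤ (⌈((C : ℝ) + 2) * A ^ (k + 2)⌉₊ : ℕ) := by
        have g1 : ((x.natAbs : ℕ) : ℝ) = |(x : ℝ)| := by rw [Nat.cast_natAbs]; push_cast; rfl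
        rw [g1]; exact hx
      exact_mod_cast h2
    intro t ht
    refine ⟨fun i => hnat _ ?_, hnat _ ?_⟩
    · refine ((hT t ht).t_le i).trans (le_trans ?_ hHge)
      have h3 : A ≤ A ^ (k + 2) := le_self_pow₀ hA (by omega)
      calc 2 * A ≤ 2 * A ^ (k + 2) := by gcongr
        _ ≤ (C + 2) * A ^ (k + 2) := by gcongr; linarith
    · refine ((hT t ht).m_le).trans (le_trans ?_ hHge)
      have g1 : A ^ ((k : ℝ) + ρ) ≤ A ^ (k + 2) := by
        rw [← Real.rpow_natCast A (k + 2)]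
        refine Real.rpow_le_rpow_of_exponent_le hA ?_
        push_cast; linarith
      calc (C : ℝ) * A ^ ((k : ℝ) + ρ) ≤ C * A ^ (k + 2) := by gcongr
        _ ≤ (C + 2) * A ^ (k + 2) := by gcongr; linarith

set_option maxHeartbeats 1000000 in
theorem sliceBoundAt (levels : LevelsStmt') {F : Polynomial ℤ} (hF : F.Monic)
    (z : Fin F.natDegree → ℂ) (hinj : Function.Injective z)
    (hz : ∀ i, F.eval₂ (Int.castRingHom ℂ) (z i) = 0) {k : ℕ} (hk : k + 2 = F.natDegree)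
    (hk2 : 2 ≤ k) {ρ : ℝ} (hρ : (k : ℝ) / (k + 1) ≤ ρ) (hρ2 : ρ ≤ 2)
    (h1 : L1At hF z k ρ (49 / 100 * ρ)) (h2 : L2At hF z k ρ (505 / 1000 * ρ))
    (h3 : L3At hF z k ρ (505 / 1000 * ρ)) : SliceBoundAt hF z k ρ := by
  classical
  intro C M hC hM
  have hk0 : (2 : ℝ) ≤ k := by exact_mod_cast hk2
  have hρ35 : 3 / 5 ≤ ρ := by
    refine le_trans ?_ hρ
    rw [le_div_iff₀ (by linarith)]; linarith
  have hρ0 : 0 < ρ := by linarith
  obtain ⟨D0, l0⟩ := l0At hF z hinj hz hk hk2 hρ35 C M hC hM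
  obtain ⟨D1', A1, l1'⟩ := h1 C M hC hM D0
  obtain ⟨D1, hD01, hD11⟩ : ∃ D1, D0 ≤ D1 ∧ D1' ≤ D1 := ⟨max D0 D1', le_max_left _ _, le_max_right _ _⟩
  have l1 : ∀ A : ℝ, A1 ≤ A → 1 ≤ A →
      ∀ a0 S n b L, LevelData hF z k C M A ρ a0 S n b L (49 / 100 * ρ) →
      (∃ G : MvPolynomial (Fin 3) ℤ, G ≠ 0 ∧ G.totalDegree ≤ D0 ∧
        ∀ t ∈ S, MvPolynomial.eval ![n t, t 0, t 1] G = 0) →
      (∀ l ∈ L, Par 2 S (l : ℤ) {(fun t => t 0), (fun t => t 1), n}) →
      ∃ R : MvPolynomial (Fin 2) ℤ, R ≠ 0 ∧ R.totalDegree ≤ D1 ∧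
        ∀ t ∈ S, MvPolynomial.eval t R = 0 := by
    intro A hA1 hA a0 S n b L hL hG hp
    obtain ⟨R, hR0, hRd, hR⟩ := l1' A hA1 hA a0 S n b L hL hG hp
    exact ⟨R, hR0, hRd.trans hD11, hR⟩
  obtain ⟨D2, A2, l2⟩ := h2 C M hC hM D1
  obtain ⟨C3, A3, l3⟩ := h3 C M hC hM
  obtain ⟨h, hh⟩ : ∃ h : ℕ, h = 1000 := ⟨_, rfl⟩
  have hhr : (h : ℝ) = 1000 := by rw [hh]; norm_num
  obtain ⟨a, ha⟩ : ∃ a : ℕ, a = 98 := ⟨_, rfl⟩
  obtain ⟨b', hb'⟩ : ∃ b : ℕ, b = 101 := ⟨_, rfl⟩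
  have har : (a : ℝ) = 98 := by rw [ha]; norm_num
  have hbr : (b' : ℝ) = 101 := by rw [hb']; norm_num
  obtain ⟨c0, c1, hlev⟩ := levels h a b' D0 D1 D2 C3 (by omega) (by omega) hD01
  set ε : ℝ := ρ / 200000 with hε
  have hε0 : 0 < ε := by positivity
  have hε1 : ε ≤ 1 := by rw [hε]; linarith
  obtain ⟨B, A4, hB⟩ := exists_B c0 c1 (k + 2) (C + 3) (by positivity) ε hε0
  obtain ⟨K, Const, hlev⟩ := hlev B
  -- the threshold for `A`
  set A5 : ℝ := ((C : ℝ) + 2) ^ (1 / ε) with hA5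
  have hA50 : 0 < A5 := Real.rpow_pos_of_pos (by positivity) _
  set A0 : ℝ := |A1| + |A2| + |A3| + |A4| + A5 + 2 ^ (K + 1) + 1 with hA0
  have hab1 := abs_nonneg A1
  have hab2 := abs_nonneg A2
  have hab3 := abs_nonneg A3
  have hab4 := abs_nonneg A4
  have hle1 := le_abs_self A1
  have hle2 := le_abs_self A2
  have hle3 := le_abs_self A3
  have hle4 := le_abs_self A4
  have hpow : (0 : ℝ) < 2 ^ (K + 1) := by positivity
  have hA01 : 1 ≤ A0 := by rw [hA0]; linarith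
  obtain ⟨e, he⟩ : ∃ e : ℕ, e = (a + b') * (h + 3) := ⟨_, rfl⟩
  set Kf : ℝ := (4 * A0 + 1) ^ 2 + Const * (2 ^ (K + 1)) ^ e + 1 with hKf
  refine ⟨Kf, by positivity, ?_⟩
  intro A hA a0 ha0 hgp T n b hT
  have hApos : 0 < A := by linarith
  have hAρ : 1 ≤ A ^ (999 / 1000 * ρ) := Real.one_le_rpow hA (by positivity)
  rcases lt_or_ge A A0 with hsmall | hlarge
  · -- small `A`
    set Bd : ℕ := ⌊2 * A⌋₊ with hBd
    have hTle : ∀ t ∈ T, ∀ i, |t i| ≤ (Bd : ℤ) := by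
      intro t ht i
      have g1 := (hT t ht).t_le i
      have g4 : ((|t i|.toNat : ℕ) : ℤ) = |t i| := Int.toNat_of_nonneg (abs_nonneg _)
      have g2 : ((|t i|.toNat : ℕ) : ℝ) ≤ 2 * A := by
        have : ((|t i|.toNat : ℕ) : ℝ) = |(t i : ℝ)| := by
          have g5 : (((|t i|.toNat : ℕ) : ℤ) : ℝ) = ((|t i| : ℤ) : ℝ) := by rw [g4]
          push_cast at g5
          exact g5
        rw [this]; exact g1
      have g3 : |t i|.toNat ≤ Bd := Nat.le_floor g2
      omega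
    have hcard : T.card ≤ (2 * Bd + 1) ^ 2 := by
      have hbox : (Fintype.piFinset fun _ : Fin 2 => Finset.Icc (-(Bd : ℤ)) Bd).card =
          (2 * Bd + 1) ^ 2 := by
        rw [Fintype.card_piFinset, Finset.prod_const, Finset.card_univ, Fintype.card_fin,
          Int.card_Icc]
        congr 1
        omega
      rw [← hbox]
      refine Finset.card_le_card fun t ht => Fintype.mem_piFinset.mpr fun i => Finset.mem_Icc.mpr ?_
      exact abs_le.mp (hTle t ht i)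
    have g1 : (T.card : ℝ) ≤ (4 * A0 + 1) ^ 2 := by
      have g2 : (T.card : ℝ) ≤ (((2 * Bd + 1) ^ 2 : ℕ) : ℝ) := by exact_mod_cast hcard
      refine g2.trans ?_
      push_cast
      have g3 : (Bd : ℝ) ≤ 2 * A := Nat.floor_le (by positivity)
      have g4 : (2 * (Bd : ℝ) + 1) ≤ 4 * A0 + 1 := by linarith
      gcongr
    calc (T.card : ℝ) ≤ (4 * A0 + 1) ^ 2 := g1
      _ ≤ Kf := by
          rw [hKf]
          have : (0 : ℝ) ≤ Const * (2 ^ (K + 1)) ^ e := by positivity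
          linarith
      _ = Kf * 1 := (mul_one _).symm
      _ ≤ Kf * A ^ (999 / 1000 * ρ) := mul_le_mul_of_nonneg_left hAρ (by positivity)
  · -- large `A`
    have gA1 : A1 ≤ A := by linarith
    have gA2 : A2 ≤ A := by linarith
    have gA3 : A3 ≤ A := by linarith
    have gA4 : A4 ≤ A := by linarith
    have gA5 : A5 ≤ A := by linarith
    have gAK : (2 : ℝ) ^ (K + 1) < A := by linarith
    have hAε1 : 1 ≤ A ^ ε := Real.one_le_rpow hA hε0.le
    set X : ℕ := ⌈A ^ ε⌉₊ with hX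
    have hXA : A ^ ε ≤ X := Nat.le_ceil _
    have hXA2 : (X : ℝ) ≤ 2 * A ^ ε := by
      have : (X : ℝ) < A ^ ε + 1 := Nat.ceil_lt_add_one (by positivity)
      linarith
    have hX1 : 1 ≤ X := by
      have : (1 : ℝ) ≤ X := hAε1.trans hXA
      exact_mod_cast this
    have hXC : C < X := by
      have g1 : (C : ℝ) + 2 ≤ A ^ ε := by
        calc (C : ℝ) + 2 = (((C : ℝ) + 2) ^ (1 / ε)) ^ ε := by
              rw [← Real.rpow_mul (by positivity), one_div, inv_mul_cancel₀ hε0.ne', Real.rpow_one]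
          _ ≤ A ^ ε := Real.rpow_le_rpow hA50.le gA5 hε0.le
      have g2 : (C : ℝ) < X := by linarith
      exact_mod_cast g2
    obtain ⟨PP, hPPc, hPP⟩ := exists_pool K X hX1
    have hX'A : ((2 ^ K * X : ℕ) : ℝ) ≤ 2 ^ (K + 1) * A ^ ε := by
      push_cast
      calc (2 : ℝ) ^ K * X ≤ 2 ^ K * (2 * A ^ ε) := by gcongr
        _ = 2 ^ (K + 1) * A ^ ε := by rw [pow_succ]; ring
    have hPd : ∀ r ∈ PP, (r : ℝ) < A ^ F.natDegree := by
      intro r hr
      have g1 : (r : ℝ) ≤ ((2 ^ K * X : ℕ) : ℝ) := by exact_mod_cast (hPP r hr).2.2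
      calc (r : ℝ) ≤ 2 ^ (K + 1) * A ^ ε := g1.trans hX'A
        _ ≤ 2 ^ (K + 1) * A := by
            have : A ^ ε ≤ A ^ (1 : ℝ) := Real.rpow_le_rpow_of_exponent_le hA hε1
            rw [Real.rpow_one] at this
            gcongr
        _ < A * A := mul_lt_mul_of_pos_right gAK hApos
        _ = A ^ 2 := by ring
        _ ≤ A ^ F.natDegree := pow_le_pow_right₀ hA (by omega)
    -- size `H`
    obtain ⟨H, hH1, hHle, hTH⟩ := exists_H hF hA hρ2 T n b hT
    have hmain := hlev H X (2 ^ K * X) T n PP hPPc hPP hH1 hTH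
      (hB A gA4 hA H X (by exact_mod_cast hHle) hXA) ?_ ?_ ?_ ?_
    · rw [← he] at hmain
      have g1 : (T.card : ℝ) ≤ ((Const * (2 ^ K * X) ^ e : ℕ) : ℝ) := by exact_mod_cast hmain
      have g2 : ε * e ≤ 999 / 1000 * ρ := by
        rw [he, hε]
        push_cast
        rw [hhr, har, hbr]
        linarith
      calc (T.card : ℝ) ≤ ((Const * (2 ^ K * X) ^ e : ℕ) : ℝ) := g1
        _ = Const * ((2 ^ K * X : ℕ) : ℝ) ^ e := by push_cast; ring
        _ ≤ Const * (2 ^ (K + 1) * A ^ ε) ^ e := by gcongr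
        _ = Const * (2 ^ (K + 1)) ^ e * A ^ (ε * e) := by
            rw [mul_pow, Real.rpow_mul hApos.le, Real.rpow_natCast]; ring
        _ ≤ Kf * A ^ (999 / 1000 * ρ) := by
            have g3 : A ^ (ε * e) ≤ A ^ (999 / 1000 * ρ) := Real.rpow_le_rpow_of_exponent_le hA g2
            have g4 : (Const : ℝ) * (2 ^ (K + 1)) ^ e ≤ Kf := by
              rw [hKf]
              have : (0 : ℝ) ≤ (4 * A0 + 1) ^ 2 := by positivity
              linarith
            exact mul_le_mul g4 g3 (by positivity) (by positivity)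
    · -- L0
      intro U hU Q hQ hQc hcong
      have hd := levelData_mods hF z (κ := 49 / 100 * ρ) (a := a) (h := h) ha0 hgp hT
        (by omega) hX1 (fun r hr => (hPP r (hQ hr)).1) (fun r hr => (hPP r (hQ hr)).2.1)
        (by omega) hA hε0.le hXA (by rw [hε, hhr, har]; linarith) hXC
        (fun r hr => hPd r (hQ hr)) hU
      refine l0 A hA a0 _ n b _ hd ?_
      intro l hl t ht t' ht' i
      obtain ⟨r, hr, rfl⟩ := mem_mods.mp hl
      push_cast
      exact hcong r hr t ht t' ht' i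
    · -- L1
      intro U hU Q hQ hQc hG hpar
      have hd := levelData_mods hF z (κ := 49 / 100 * ρ) (a := a) (h := h) ha0 hgp hT
        (by omega) hX1 (fun r hr => (hPP r (hQ hr)).1) (fun r hr => (hPP r (hQ hr)).2.1)
        (by omega) hA hε0.le hXA (by rw [hε, hhr, har]; linarith) hXC
        (fun r hr => hPd r (hQ hr)) hU
      refine l1 A gA1 hA a0 _ n b _ hd hG ?_
      intro l hl
      obtain ⟨r, hr, rfl⟩ := mem_mods.mp hl
      push_cast
      exact hpar r hr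
    · -- L2
      intro U hU Q hQ hQc hR hpar
      have hd := levelData_mods hF z (κ := 505 / 1000 * ρ) (a := b') (h := h) ha0 hgp hT
        (by omega) hX1 (fun r hr => (hPP r (hQ hr)).1) (fun r hr => (hPP r (hQ hr)).2.1)
        (by omega) hA hε0.le hXA (by rw [hε, hhr, hbr]; linarith) hXC
        (fun r hr => hPd r (hQ hr)) hU
      refine l2 A gA2 hA a0 _ n b _ hd hR ?_
      intro l hl
      obtain ⟨r, hr, rfl⟩ := mem_mods.mp hl
      push_cast
      exact hpar r hr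
    · -- L3
      intro U hU Q hQ hQc hpar
      have hd := levelData_mods hF z (κ := 505 / 1000 * ρ) (a := b') (h := h) ha0 hgp hT
        (by omega) hX1 (fun r hr => (hPP r (hQ hr)).1) (fun r hr => (hPP r (hQ hr)).2.1)
        (by omega) hA hε0.le hXA (by rw [hε, hhr, hbr]; linarith) hXC
        (fun r hr => hPd r (hQ hr)) hU
      have := l3 A gA3 hA a0 _ n b _ hd ?_
      · rwa [Set.ncard_coe_finset] at this
      intro l hl
      obtain ⟨r, hr, rfl⟩ := mem_mods.mp hl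
      push_cast
      exact hpar r hr

end Crest.Agent.R22.Inst859
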